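import Vale.Agent.P054.T2.H428.SecC
import Vale.Agent.P054.T2.H431.MD2
import Vale.Agent.P054.T2.H455.Sep
import Vale.Agent.P054.T2.H930.Jets

/-!
# P054 / T2, section C, [C4]: a good base point makes the class countable (`Side` form)
-/

open MvPolynomial Module

namespace Vale.Agent.P054.T2.H701

open H580 (IsFilt hilbF rkF Vw)
open H163 (m mem_m)
open H441 (hF rkY resA resA_apply)
open H455 (Sep)
open H431 (Nm)
open SecC (ZI ZZ pt HL wt hx Side Bad wt_ne)

section general

variable {ι σ K : Type*} [Field K]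

/-- separated points are independent for the polynomials of degree `≤ N` -/
theorem rkY_image_of_sep [Finite σ] [DecidableEq (σ → K)] {g : ι → (σ → K)} {N : ℕ}
    {A : Finset ι} (h : Sep g N A) : rkY (A.image g) N = (A.image g).card := by
  classical
  have hfin : FiniteDimensional K (restrictTotalDegree σ K N) := H441.finiteDeg N
  have htop : (restrictTotalDegree σ K N).map (resA (A.image g)).toLinearMap = ⊤ := by
    rw [eq_top_iff]
    intro c _
    have h1 : ∀ p : A.image g, (Pi.single p 1 : (A.image g) → K) ∈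
        (restrictTotalDegree σ K N).map (resA (A.image g)).toLinearMap := by
      rintro ⟨p, hp⟩
      obtain ⟨i, hi, rfl⟩ := Finset.mem_image.1 hp
      obtain ⟨F, hF1, hF2, hF3⟩ := h i hi
      refine ⟨C (eval (g i) F)⁻¹ * F, ?_, ?_⟩
      · change C (eval (g i) F)⁻¹ * F ∈ restrictTotalDegree σ K N
        rw [mem_restrictTotalDegree]
        refine (totalDegree_mul _ _).trans ?_
        rw [totalDegree_C, zero_add]
        exact hF1
      · funext q
        obtain ⟨q, hq⟩ := q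
        obtain ⟨j, hj, rfl⟩ := Finset.mem_image.1 hq
        change resA (A.image g) (C (eval (g i) F)⁻¹ * F) _ = _
        rw [resA_apply, map_mul, eval_C]
        by_cases hij : g j = g i
        · have : (⟨g j, hq⟩ : A.image g) = ⟨g i, hp⟩ := Subtype.ext hij
          rw [this, Pi.single_eq_same, inv_mul_cancel₀ hF2]
        · have hne : (⟨g j, hq⟩ : A.image g) ≠ ⟨g i, hp⟩ := fun hh => hij (Subtype.ext_iff.1 hh)
          rw [Pi.single_eq_of_ne hne]
          have h2 : eval (g j) F = 0 := hF3 j hj (fun hh => hij (by rw [hh]))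
          change (eval (g i) F)⁻¹ * eval (g j) F = 0
          rw [h2, mul_zero]
    have h3 : c = ∑ p, c p • (Pi.single p 1 : (A.image g) → K) := by
      funext q
      rw [Finset.sum_apply, Finset.sum_eq_single q]
      · simp
      · intro p _ hp
        simp [Pi.single_eq_of_ne hp.symm]
      · intro hq
        exact absurd (Finset.mem_univ q) hq
    rw [h3]
    exact Submodule.sum_mem _ fun p _ => Submodule.smul_mem _ (c p) (h1 p)
  unfold rkY
  rw [htop, finrank_top, finrank_fintype_fun_eq_card, Fintype.card_coe]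

/-- `good_count` with the comparison only for large degrees -/
theorem good_count' {β : Type*} [Finite β] (P2 : Ideal (MvPolynomial β K)) (H : ℕ → ℕ)
    (hH : Monotone H) (μ : ℕ → ℕ) (Y : Finset (β → K)) {N s a T₁ : ℕ} (hN : rkY Y N = Y.card)
    (hjet : ∀ r ∈ Y, ∀ k, ∃ J : Ideal (MvPolynomial β K), m r ^ (k + 1) ≤ J ∧ P2 ≤ J ∧
      (k + s).choose s ≤ finrank K (MvPolynomial β K ⧸ J))
    (hfact : ∀ T, T₁ ≤ T → hF P2 T ≤ μ T + H (T + a))
    (hgood : ∀ T₀, ∃ T, T₀ ≤ T ∧ 2 * μ T ≤ hF P2 T) :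
    ∀ k₀, ∃ k, k₀ ≤ k ∧
      Y.card * (k + s).choose s ≤ 2 * H ((k + 1) * (N + 1) + (N + 1 + a)) := by
  classical
  intro k₀
  obtain ⟨T, hT', hg⟩ := hgood (max T₁ ((k₀ + 1) * (N + 1)))
  have hT₁ : T₁ ≤ T := (le_max_left _ _).trans hT'
  have hT : (k₀ + 1) * (N + 1) ≤ T := (le_max_right _ _).trans hT'
  have hNpos : 0 < N + 1 := Nat.succ_pos _
  have h1 : k₀ + 1 ≤ T / (N + 1) := (Nat.le_div_iff_mul_le hNpos).2 hT
  obtain ⟨k, hk⟩ : ∃ k, T / (N + 1) = k + 1 := ⟨T / (N + 1) - 1, by omega⟩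
  refine ⟨k, by omega, ?_⟩
  have h2 : (k + 1) * (N + 1) ≤ T := by
    rw [← hk]; exact Nat.div_mul_le_self T (N + 1)
  have h3 : T < (k + 1) * (N + 1) + (N + 1) := by
    have := Nat.lt_div_mul_add (a := T) hNpos
    rw [hk] at this
    exact this
  choose! J hJ using hjet
  have h4 : rkY Y N * (k + s).choose s ≤ hF P2 ((k + 1) * N + k * 1) := by
    have := (H580.isFilt_total (σ := β) (k := K)).lo (w₀ := 1)
      (fun i => by rw [mem_restrictTotalDegree]; exact (totalDegree_X i).le)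
      P2 Y (fun r => J r k) (T := N) (k := k) (e := s)
      (fun r hr => (hJ r hr k).1) (fun r hr F hF _ => (hJ r hr k).2.1 hF)
      (fun r hr => (hJ r hr k).2.2)
    exact this
  have h5 : hF P2 ((k + 1) * N + k * 1) ≤ hF P2 T :=
    (H580.isFilt_total (σ := β) (k := K)).hilbF_mono P2 (by nlinarith)
  have h6 : hF P2 T ≤ 2 * H (T + a) := by
    have := hfact T hT₁
    omega
  have h7 : H (T + a) ≤ H ((k + 1) * (N + 1) + (N + 1 + a)) := hH (by omega)
  rw [hN] at h4
  omega

end general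

variable {n : ℕ} {A : Finset (ZZ n × ZZ n)} {W D σ v : ℕ}

/-- **[C4], good case.** The base point `s = e.1` is not bad for the prime of `r`: the class of
`e` is countable from `s`. -/
theorem good_side (S : Side n A W D σ v) (hv : v = 0) (e : ZZ n × ZZ n) (N G : ℕ)
    (hgood : ¬ Bad (S.Pr e) (pt e.1))
    (hmd1 : ∀ J, ∃ C, ∀ T k, T ≤ k + J →
      finrank ℝ ((Nm (pt e.1) T k).map (Ideal.Quotient.mkₐ ℝ (S.Pr e)).toLinearMap) ≤
        hilbF (Vw ℝ (wt W)) (S.P e) (T + C))
    (hjet : ∀ e' ∈ S.cls e, ∀ k, (k + σ).choose σ ≤ finrank ℝ (MvPolynomial (ZI n) ℝ ⧸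
      (H930.J (hx e'.1 e'.2) (S.F e'.1) (k + 1)).comap (rename (R := ℝ) Sum.inr)))
    (hsep : Sep (fun e' : ZZ n × ZZ n => pt e'.2) N (S.cls e)) : S.Cnt N G e := by
  classical
  -- generators of the prime of `r`
  obtain ⟨Gs, hGs⟩ : (S.Pr e).FG := IsNoetherian.noetherian _
  set J₀ := Gs.sup totalDegree with hJ₀
  have hgen : ∀ g ∈ (Gs : Set (MvPolynomial (ZI n) ℝ)), g.totalDegree ≤ J₀ :=
    fun g hg => Finset.le_sup (f := totalDegree) hg
  obtain ⟨C, hC⟩ := hmd1 J₀
  refine Or.inr ⟨hv, N + 1 + C, ?_⟩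
  have hinj : Set.InjOn (fun e' : ZZ n × ZZ n => pt e'.2) (S.cls e) := by
    intro a ha b hb hab
    have h1 := (S.mem_cls.1 ha).2.1
    have h2 := (S.mem_cls.1 hb).2.1
    exact Prod.ext (h1.trans h2.symm) (SecC.pt_injective hab)
  have hcard : ((S.cls e).image fun e' : ZZ n × ZZ n => pt e'.2).card = (S.cls e).card :=
    Finset.card_image_of_injOn hinj
  have key := good_count' (K := ℝ) (S.Pr e) (hilbF (Vw ℝ (wt W)) (S.P e))
    (fun a b h => (H580.isFilt_Vw (wt W) (wt_ne S.hW)).hilbF_mono (S.P e) h)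
    (fun T => finrank ℝ (MvPolynomial (ZI n) ℝ ⧸ (S.Pr e ⊔ m (pt e.1) ^ (T + 1 - J₀))))
    ((S.cls e).image fun e' : ZZ n × ZZ n => pt e'.2) (N := N) (s := σ) (a := C) (T₁ := J₀)
    (rkY_image_of_sep hsep) ?_ ?_ ?_
  · rw [hcard] at key
    exact key
  · intro r hr k
    obtain ⟨e', he', rfl⟩ := Finset.mem_image.1 hr
    refine ⟨_, ?_, ?_, hjet e' he' k⟩
    · have h1 : m (pt e'.2) ≤ (H930.mx (hx e'.1 e'.2)).comap (rename (R := ℝ) Sum.inr) := by
        intro F hF
        rw [mem_m] at hF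
        rw [Ideal.mem_comap, H930.mem_mx, eval_rename]
        exact hF
      refine ((Ideal.pow_right_mono h1 (k + 1)).trans (Ideal.le_comap_pow _ _)).trans ?_
      exact Ideal.comap_mono (H930.pow_le_J _ _ _)
    · have h2 : S.Pr e = S.Pr e' := by
        have := (S.mem_cls.1 he').2.2
        unfold Side.Pr
        rw [this]
      rw [h2]
      exact Ideal.comap_mono (H930.germ_le_J _ _ _)
  · intro T hT
    refine (H431.md2 (S.Pr e) hGs.symm hgen (pt e.1) (T := T) (n := T + 1 - J₀) (by omega)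
      (H431.finite_quot_mpow _ _ _)).trans ?_
    exact Nat.add_le_add_left (hC T (T + 1 - J₀) (by omega)) _
  · intro T₀
    unfold Bad at hgood
    push Not at hgood
    obtain ⟨k, hk, hk'⟩ := hgood T₀
    refine ⟨k + J₀, by omega, ?_⟩
    have h1 : k + J₀ + 1 - J₀ = k + 1 := by omega

    rw [h1]
    have h2 : hF (S.Pr e) k ≤ hF (S.Pr e) (k + J₀) :=
      (H580.isFilt_total (σ := ZI n) (k := ℝ)).hilbF_mono (S.Pr e) (Nat.le_add_right _ _)
    exact (hk'.le).trans h2

end Vale.Agent.P054.T2.H701
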