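import Vale.Agent.P054.T2.H701.GStarSys

/-!
# P054 / T2, row (S1) / B12: [G*] for `Z+` over `hat X₁` and over `hat X₂`

`sysZ f h h'` = the system of `Z+` (930) in `K[A ⊕ (B ⊕ C)]`; classes of edges = equal germ primes.
-/

open MvPolynomial Module

namespace Vale.Agent.P054.T2.H701

open H580 (IsFilt hilbF rkF Vw wh)
open H930 (germ grad sysZ)

section equiv

variable {K : Type*} [Field K] {σ τ : Type*} [Fintype σ] [DecidableEq σ] [Fintype τ]
  [DecidableEq τ]

/-- germ ideals under a renaming of the variables -/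
theorem germ_equiv (ε : σ ≃ τ) {c : ℕ} (p : τ → K) (F : Fin c → MvPolynomial τ K) :
    (germ p F).comap (rename (R := K) ε) = germ (p ∘ ε) (fun i => rename ε.symm (F i)) := by
  apply le_antisymm
  · intro G hG
    have h1 : germ p F ≤ (germ (p ∘ ε) (fun i => rename ε.symm (F i))).comap
        (rename (R := K) ε.symm) := by
      refine H930.germ_le_comap (rename (R := K) ε.symm) (fun G => ?_) (fun i => ?_)
      · rw [eval_rename]
        congr 2
        funext t
        simp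
      · exact H930.f_mem_germ _ _ i
    have h2 : rename (R := K) ε.symm (rename (R := K) ε G) ∈
        germ (p ∘ ε) (fun i => rename ε.symm (F i)) := h1 hG
    rw [rename_rename] at h2
    have h3 : (ε.symm ∘ ε : σ → σ) = id := by funext t; simp
    rw [h3, rename_id_apply] at h2
    exact h2
  · refine H930.germ_le_comap (rename (R := K) ε) (fun G => ?_) (fun i => ?_)
    · rw [eval_rename]
    · rw [rename_rename]
      have h3 : (ε ∘ ε.symm : τ → τ) = id := by funext t; simp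
      rw [h3, rename_id_apply]
      exact H930.f_mem_germ _ _ i

theorem mem_germ_equiv (ε : σ ≃ τ) {c : ℕ} (p : τ → K) (F : Fin c → MvPolynomial τ K)
    (G : MvPolynomial σ K) : G ∈ germ (p ∘ ε) (fun i => rename ε.symm (F i)) ↔
      rename (R := K) ε G ∈ germ p F := by
  rw [← germ_equiv]
  exact Iff.rfl

end equiv

section tau

variable {K : Type*} [Field K] [CharZero K] {α β τ : Type*}
variable [Fintype α] [Fintype β] [DecidableEq α] [DecidableEq β] [Fintype τ] [DecidableEq τ]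

/-- **[G*] for a system in any variables `τ ≃ α ⊕ β`.** -/
theorem gstar_tau {ι : Type*} (A : Finset ι) (ε : α ⊕ β ≃ τ) (x : ι → τ → K) {c' : ℕ}
    (G : Fin c' → MvPolynomial τ K) {c m : ℕ}
    (F₀ : Fin c → MvPolynomial α K) (F : Fin (c + m) → MvPolynomial (α ⊕ β) K)
    (hrange : Set.range F = Set.range (fun i => rename (R := K) ε.symm (G i)))
    (hleft : ∀ i, F (Fin.castAdd m i) = rename Sum.inl (F₀ i))
    (hG : ∀ e ∈ A, ∀ i, eval (x e) (G i) = 0)
    (hind₀ : ∀ e ∈ A, LinearIndependent K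
      (fun i => grad (fun a => x e (ε (Sum.inl a))) (F₀ i)))
    (hindr : ∀ e ∈ A, LinearIndependent K (fun (j : Fin m) (z : β) =>
      eval (x e ∘ ε) (pderiv (Sum.inr z) (F (Fin.natAdd c j)))))
    (w : α → ℕ) {W : ℕ} (hw1 : ∀ a, w a ≠ 0) (hwW : ∀ a, w a ≤ W) (hW0 : 0 < W)
    (d : ℕ → ℕ) (hd1 : ∀ j < c + m, 1 ≤ d j)
    (hd : ∀ j : Fin (c + m), F j ∈ Vw K (Sum.elim w (fun _ : β => W)) (d j))
    {v e₁ : ℕ} (hv : m + v = Fintype.card β) (he : Fintype.card α - c = e₁ + 1)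
    [DecidableEq (α → K)] {T : ℕ} (Bd : Finset ι) (hBA : Bd ⊆ A)
    (hBd : ∀ e ∈ Bd, ∃ φ ∈ Vw K w T,
      (∀ e' ∈ A, germ (x e') G = germ (x e) G → eval (fun a => x e' (ε (Sum.inl a))) φ = 0) ∧
      rename (fun a => ε (Sum.inl a)) φ ∉ germ (x e) G)
    {T' j : ℕ} (hj : j * T ≤ T' + W) :
    ((∏ a, w a) * W ^ Fintype.card β) *
      (j * rkF (Vw K w) (Bd.image fun e a => x e (ε (Sum.inl a))) T') ≤
      CS e₁ v (Fintype.card α + Fintype.card β) *
        ((∏ j ∈ Finset.range (c + m), d j) * W ^ v) * (T' + W) ^ (e₁ + 1) := by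
  classical
  have hgerm : ∀ e, germ (x e ∘ ε) F = germ (x e ∘ ε) (fun i => rename (R := K) ε.symm (G i)) :=
    fun e => H269.germ_congr_range _ hrange
  refine gstar_sys A (fun e => x e ∘ ε) F₀ F hleft ?_ hind₀ hindr w hw1 hwW hW0 d hd1 hd hv he Bd
    hBA ?_ hj
  · intro e he' i
    have h1 : F i ∈ Set.range (fun i => rename (R := K) ε.symm (G i)) := by
      rw [← hrange]; exact ⟨i, rfl⟩
    obtain ⟨k, hk⟩ := h1
    rw [← hk]
    change eval (x e ∘ ε) (rename ε.symm (G k)) = 0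
    rw [eval_rename]
    have h3 : ((x e ∘ ε) ∘ ε.symm) = x e := by funext t; simp
    rw [h3]
    exact hG e he' k
  · intro e he'
    obtain ⟨φ, h1, h2, h3⟩ := hBd e he'
    refine ⟨φ, h1, ?_, ?_⟩
    · intro e' he'' hcl
      refine h2 e' he'' ?_
      -- equal germs in `K[α ⊕ β]` give equal germs in `K[τ]`
      rw [hgerm, hgerm] at hcl
      ext P
      have h4 : ∀ e, P ∈ germ (x e) G ↔ rename (R := K) ε.symm P ∈
          germ (x e ∘ ε) (fun i => rename (R := K) ε.symm (G i)) := by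
        intro e
        rw [mem_germ_equiv, rename_rename]
        have h5 : (ε ∘ ε.symm : τ → τ) = id := by funext t; simp
        rw [h5, rename_id_apply]
      rw [h4, h4]
      change _ ∈ germ (x e' ∘ ε) _ ↔ _ ∈ germ (x e ∘ ε) _
      rw [hcl]
    · intro hmem
      apply h3
      change rename Sum.inl φ ∈ germ (x e ∘ ε) F at hmem
      rw [hgerm, mem_germ_equiv, rename_rename] at hmem
      exact hmem

omit [CharZero K] [Fintype α] [DecidableEq α] [Fintype β] [DecidableEq β] [Fintype τ]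
  [DecidableEq τ] in
/-- contrapositive: all but few edges of `A` are good -/
theorem gstar_few {ι : Type*} {A Bd : Finset ι} (hBA : Bd ⊆ A) {w : α → ℕ} [DecidableEq (α → K)]
    {y : ι → α → K} {T' L M j U β' : ℕ}
    (hL : ∀ B ⊆ A, A.card < β' * B.card → L ≤ rkF (Vw K w) (B.image y) T')
    (hU : M * (j * rkF (Vw K w) (Bd.image y) T') ≤ U) (hnum : U < M * (j * L)) :
    β' * Bd.card ≤ A.card := by
  by_contra hlt
  push Not at hlt
  have h1 := hL Bd hBA hlt
  have h2 := Nat.mul_le_mul_left M (Nat.mul_le_mul_left j h1)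
  omega

end tau

/-! ### the system of `Z+` -/

section Z

variable {K : Type*} [Field K] [CharZero K] {A B C' : Type*}
variable [Fintype A] [Fintype B] [Fintype C'] [DecidableEq A] [DecidableEq B] [DecidableEq C']

/-- levels of the equations `f`, `h`, `h'` -/
def lev3 (c₀ c₁ : ℕ) (δ d₁ d₂ : ℕ → ℕ) (k : ℕ) : ℕ :=
  if k < c₀ then δ k else if k < c₀ + c₁ then d₁ (k - c₀) else d₂ (k - (c₀ + c₁))

theorem prod_lev3 (c₀ c₁ c₂ : ℕ) (δ d₁ d₂ : ℕ → ℕ) :
    ∏ k ∈ Finset.range (c₀ + c₁ + c₂), lev3 c₀ c₁ δ d₁ d₂ k =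
      (∏ k ∈ Finset.range c₀, δ k) * (∏ k ∈ Finset.range c₁, d₁ k) *
        ∏ k ∈ Finset.range c₂, d₂ k := by
  rw [Finset.prod_range_add, Finset.prod_range_add]
  congr 1
  · congr 1
    · refine Finset.prod_congr rfl fun k hk => ?_
      unfold lev3
      rw [if_pos (Finset.mem_range.1 hk)]
    · refine Finset.prod_congr rfl fun k hk => ?_
      have := Finset.mem_range.1 hk
      unfold lev3
      rw [if_neg (by omega), if_pos (by omega)]
      congr 1
      omega
  · refine Finset.prod_congr rfl fun k hk => ?_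
    unfold lev3
    rw [if_neg (by omega), if_neg (by omega)]
    congr 1
    omega

omit [Fintype A] [Fintype B] [Fintype C'] [DecidableEq A] [DecidableEq B] [DecidableEq C'] in
/-- the equivalence `(A ⊕ B) ⊕ C ≃ A ⊕ (B ⊕ C)`; `ε ∘ inl = Sum.map id inl` -/
theorem assoc_inl : (fun a => Equiv.sumAssoc A B C' (Sum.inl a)) =
    (Sum.map id Sum.inl : A ⊕ B → A ⊕ (B ⊕ C')) := by
  funext a
  rcases a with a | a <;> rfl

/-- **[G*] for `Z+` over `hat X₁`** (base `(g, s)`, fibre `r`). -/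
theorem gstar_Z1 {ι : Type*} (E : Finset ι) (x : ι → A ⊕ (B ⊕ C') → K) {c₀ c₁ c₂ : ℕ}
    (f : Fin c₀ → MvPolynomial A K) (h : Fin c₁ → MvPolynomial (A ⊕ B) K)
    (h' : Fin c₂ → MvPolynomial (A ⊕ C') K)
    (hf0 : ∀ e ∈ E, ∀ i, eval (x e ∘ Sum.inl) (f i) = 0)
    (hh0 : ∀ e ∈ E, ∀ i, eval (x e ∘ Sum.map id Sum.inl) (h i) = 0)
    (hh0' : ∀ e ∈ E, ∀ i, eval (x e ∘ Sum.map id Sum.inr) (h' i) = 0)
    (hf : ∀ e ∈ E, LinearIndependent K (fun i => grad (x e ∘ Sum.inl) (f i)))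
    (hh : ∀ e ∈ E, LinearIndependent K (fun i => fun b =>
      eval (x e ∘ Sum.map id Sum.inl) (pderiv (Sum.inr b) (h i))))
    (hh' : ∀ e ∈ E, LinearIndependent K (fun i => fun b =>
      eval (x e ∘ Sum.map id Sum.inr) (pderiv (Sum.inr b) (h' i))))
    {W : ℕ} (hW0 : 0 < W) (δ d₁ d₂ : ℕ → ℕ)
    (hδ1 : ∀ j < c₀, 1 ≤ δ j) (hd₁1 : ∀ j < c₁, 1 ≤ d₁ j) (hd₂1 : ∀ j < c₂, 1 ≤ d₂ j)
    (hδ : ∀ i : Fin c₀, f i ∈ restrictTotalDegree A K (δ i))
    (hd₁ : ∀ i : Fin c₁, h i ∈ Vw K (wh A B W) (d₁ i))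
    (hd₂ : ∀ i : Fin c₂, h' i ∈ Vw K (wh A C' W) (d₂ i))
    {v e₁ : ℕ} (hv : c₂ + v = Fintype.card C')
    (he : Fintype.card A + Fintype.card B - (c₀ + c₁) = e₁ + 1)
    [DecidableEq (A ⊕ B → K)] {T : ℕ} (Bd : Finset ι) (hBE : Bd ⊆ E)
    (hBd : ∀ e ∈ Bd, ∃ φ ∈ Vw K (wh A B W) T,
      (∀ e' ∈ E, germ (x e') (sysZ f h h') = germ (x e) (sysZ f h h') →
        eval (x e' ∘ Sum.map id Sum.inl) φ = 0) ∧
      rename (Sum.map id Sum.inl) φ ∉ germ (x e) (sysZ f h h'))
    {T' j : ℕ} (hj : j * T ≤ T' + W) :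
    (W ^ (Fintype.card B + Fintype.card C')) *
      (j * rkF (Vw K (wh A B W)) (Bd.image fun e => x e ∘ Sum.map id Sum.inl) T') ≤
      CS e₁ v (Fintype.card A + Fintype.card B + Fintype.card C') *
        (((∏ k ∈ Finset.range c₀, δ k) * (∏ k ∈ Finset.range c₁, d₁ k) *
          ∏ k ∈ Finset.range c₂, d₂ k) * W ^ v) * (T' + W) ^ (e₁ + 1) := by
  classical
  -- the block system
  let F₀ : Fin (c₀ + c₁) → MvPolynomial (A ⊕ B) K := Fin.append (fun i => rename Sum.inl (f i)) h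
  let F : Fin (c₀ + c₁ + c₂) → MvPolynomial ((A ⊕ B) ⊕ C') K :=
    Fin.append (fun i => rename Sum.inl (F₀ i)) (fun j => rename (Sum.map Sum.inl id) (h' j))
  let ε := Equiv.sumAssoc A B C'
  have hsymm1 : (ε.symm ∘ (Sum.inl : A → A ⊕ (B ⊕ C'))) = Sum.inl ∘ Sum.inl := by
    funext a; rfl
  have hsymm2 : (ε.symm ∘ (Sum.map id Sum.inl : A ⊕ B → A ⊕ (B ⊕ C'))) = Sum.inl := by
    funext a; rcases a with a | a <;> rfl
  have hsymm3 : (ε.symm ∘ (Sum.map id Sum.inr : A ⊕ C' → A ⊕ (B ⊕ C'))) = Sum.map Sum.inl id := by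
    funext a; rcases a with a | a <;> rfl
  have hFf : ∀ i : Fin c₀, F (Fin.castAdd c₂ (Fin.castAdd c₁ i)) =
      rename (Sum.inl ∘ Sum.inl) (f i) := by
    intro i
    simp only [F, F₀, Fin.append_left, rename_rename]
  have hFh : ∀ i : Fin c₁, F (Fin.castAdd c₂ (Fin.natAdd c₀ i)) = rename Sum.inl (h i) := by
    intro i
    simp only [F, F₀, Fin.append_left, Fin.append_right]
  have hFh' : ∀ i : Fin c₂, F (Fin.natAdd (c₀ + c₁) i) = rename (Sum.map Sum.inl id) (h' i) := by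
    intro i
    simp only [F, Fin.append_right]
  have hrange : Set.range F = Set.range (fun i => rename (R := K) ε.symm (sysZ f h h' i)) := by
    ext P
    constructor
    · rintro ⟨i, rfl⟩
      refine Fin.addCases (fun i => ?_) (fun i => ?_) i
      · refine Fin.addCases (fun i => ?_) (fun i => ?_) i
        · refine ⟨Fin.castAdd _ i, ?_⟩
          change rename (R := K) ε.symm (sysZ f h h' _) = _
          rw [H930.sysZ_f, rename_rename, hFf, hsymm1]
        · refine ⟨Fin.natAdd _ (Fin.castAdd _ i), ?_⟩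
          change rename (R := K) ε.symm (sysZ f h h' _) = _
          rw [H930.sysZ_h, rename_rename, hFh, hsymm2]
      · refine ⟨Fin.natAdd _ (Fin.natAdd _ i), ?_⟩
        change rename (R := K) ε.symm (sysZ f h h' _) = _
        rw [H930.sysZ_h', rename_rename, hFh', hsymm3]
    · rintro ⟨i, rfl⟩
      rcases H930.sysZ_cases f h h' i with ⟨j, hj⟩ | ⟨j, hj⟩ | ⟨j, hj⟩
      · refine ⟨Fin.castAdd c₂ (Fin.castAdd c₁ j), ?_⟩
        change _ = rename (R := K) ε.symm (sysZ f h h' i)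
        rw [hj, rename_rename, hFf, hsymm1]
      · refine ⟨Fin.castAdd c₂ (Fin.natAdd c₀ j), ?_⟩
        change _ = rename (R := K) ε.symm (sysZ f h h' i)
        rw [hj, rename_rename, hFh, hsymm2]
      · refine ⟨Fin.natAdd (c₀ + c₁) j, ?_⟩
        change _ = rename (R := K) ε.symm (sysZ f h h' i)
        rw [hj, rename_rename, hFh', hsymm3]
  have hbase : ∀ e, (fun a => x e (ε (Sum.inl a))) = x e ∘ Sum.map id Sum.inl := by
    intro e
    funext a
    rcases a with a | a <;> rfl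
  have hw : (Sum.elim (wh A B W) (fun _ : C' => W)) ∘ (Sum.inl : A ⊕ B → (A ⊕ B) ⊕ C') =
      wh A B W := by
    funext a; rfl
  have hw2 : ∀ y, (Sum.elim (wh A B W) (fun _ : C' => W)) (Sum.map Sum.inl id y) =
      wh A C' W y := by
    intro y; rcases y with y | y <;> rfl
  have hprodw : (∏ a, wh A B W a) * W ^ Fintype.card C' =
      W ^ (Fintype.card B + Fintype.card C') := by
    rw [Fintype.prod_sum_type]
    simp [wh, pow_add]
  have key := gstar_tau (K := K) E ε x (sysZ f h h') F₀ F hrange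
    (fun i => by simp only [F, Fin.append_left])
    (fun e he' i => H930.sysZ_eval f h h' (x e) (hf0 e he') (hh0 e he') (hh0' e he') i)
    (fun e he' => by
      rw [hbase]
      refine H930.grad_block_linInd (x e ∘ Sum.map id Sum.inl) F₀ f
        (fun i => by simp only [F₀, Fin.append_left]) ?_ ?_
      · exact hf e he'
      · have h1 := hh e he'
        simpa only [F₀, Fin.append_right] using h1)
    (fun e he' => by
      have h1 := hh' e he'
      have h2 : (fun (j : Fin c₂) (z : C') =>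
          eval (x e ∘ ε) (pderiv (Sum.inr z) (F (Fin.natAdd (c₀ + c₁) j)))) =
          fun i => fun b => eval (x e ∘ Sum.map id Sum.inr) (pderiv (Sum.inr b) (h' i)) := by
        funext j z
        rw [hFh']
        have hinj : Function.Injective (Sum.map Sum.inl id : A ⊕ C' → (A ⊕ B) ⊕ C') :=
          Function.Injective.sumMap Sum.inl_injective Function.injective_id
        have h3 : (Sum.inr z : (A ⊕ B) ⊕ C') = Sum.map Sum.inl id (Sum.inr z : A ⊕ C') := rfl
        rw [h3, pderiv_rename hinj, eval_rename]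
        congr 2
        funext y
        rcases y with y | y <;> rfl
      rw [h2]
      exact h1)
    (wh A B W)
    (fun a => by rcases a with a | a <;> simp [wh, hW0.ne'])
    (fun a => by rcases a with a | a <;> simp [wh]; exact hW0)
    hW0 (lev3 c₀ c₁ δ d₁ d₂)
    (fun k hk => by
      unfold lev3
      split_ifs with h1 h2
      · exact hδ1 k h1
      · exact hd₁1 _ (by omega)
      · exact hd₂1 _ (by omega))
    (fun k => by
      refine Fin.addCases (fun k => ?_) (fun k => ?_) k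
      · refine Fin.addCases (fun k => ?_) (fun k => ?_) k
        · rw [hFf]
          have h1 : lev3 c₀ c₁ δ d₁ d₂ (Fin.castAdd c₂ (Fin.castAdd c₁ k)) = δ k := by
            unfold lev3
            simp
          rw [h1]
          exact H580.rename_mem_Vw_of_total (Sum.elim (wh A B W) fun _ => W)
            (Sum.inl ∘ Sum.inl) (fun a => rfl) (hδ k)
        · rw [hFh]
          have h1 : lev3 c₀ c₁ δ d₁ d₂ (Fin.castAdd c₂ (Fin.natAdd c₀ k)) = d₁ k := by
            unfold lev3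
            simp
          rw [h1]
          exact H580.rename_mem_Vw_of_weight _ _ _ (fun a => rfl) (hd₁ k)
      · rw [hFh']
        have h1 : lev3 c₀ c₁ δ d₁ d₂ (Fin.natAdd (c₀ + c₁) k) = d₂ k := by
          unfold lev3
          have h2 : ¬ (c₀ + c₁ + (k : ℕ) < c₀) := by omega
          simp [h2]
        rw [h1]
        exact H580.rename_mem_Vw_of_weight _ _ _ hw2 (hd₂ k))
    hv (by rw [Fintype.card_sum]; exact he) Bd hBE
    (fun e he' => by
      obtain ⟨φ, h1, h2, h3⟩ := hBd e he'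
      refine ⟨φ, h1, ?_, ?_⟩
      · intro e' he'' hcl
        rw [hbase]
        exact h2 e' he'' hcl
      · rw [assoc_inl]
        exact h3) hj
  rw [hprodw, Fintype.card_sum, prod_lev3] at key
  have himg : (Bd.image fun e a => x e (ε (Sum.inl a))) =
      Bd.image fun e => x e ∘ Sum.map id Sum.inl := by
    refine Finset.image_congr fun e _ => ?_
    exact hbase e
  rw [himg] at key
  exact key

omit [CharZero K] [Fintype A] [Fintype B] [Fintype C'] [DecidableEq A] [DecidableEq B]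
  [DecidableEq C'] in
/-- the system of `Z+` with the two sides exchanged -/
theorem range_sysZ_swap {c₀ c₁ c₂ : ℕ}
    (f : Fin c₀ → MvPolynomial A K) (h : Fin c₁ → MvPolynomial (A ⊕ B) K)
    (h' : Fin c₂ → MvPolynomial (A ⊕ C') K) :
    Set.range (sysZ f h' h) = Set.range (fun i => rename (R := K)
      ((Equiv.sumCongr (Equiv.refl A) (Equiv.sumComm C' B)).symm) (sysZ f h h' i)) := by
  set ε : A ⊕ (C' ⊕ B) ≃ A ⊕ (B ⊕ C') := Equiv.sumCongr (Equiv.refl A) (Equiv.sumComm C' B)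
    with hε
  have hsymm1 : (ε.symm ∘ (Sum.inl : A → A ⊕ (B ⊕ C'))) = Sum.inl := by
    funext a; rfl
  have hsymm2 : (ε.symm ∘ (Sum.map id Sum.inl : A ⊕ B → A ⊕ (B ⊕ C'))) = Sum.map id Sum.inr := by
    funext a; rcases a with a | a <;> rfl
  have hsymm3 : (ε.symm ∘ (Sum.map id Sum.inr : A ⊕ C' → A ⊕ (B ⊕ C'))) =
      Sum.map id Sum.inl := by
    funext a; rcases a with a | a <;> rfl
  ext P
  constructor
  · rintro ⟨i, rfl⟩
    refine Fin.addCases (fun i => ?_) (fun i => ?_) i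
    · refine ⟨Fin.castAdd _ i, ?_⟩
      change rename (R := K) ε.symm (sysZ f h h' _) = _
      rw [H930.sysZ_f, rename_rename, H930.sysZ_f, hsymm1]
    · refine Fin.addCases (fun i => ?_) (fun i => ?_) i
      · refine ⟨Fin.natAdd _ (Fin.natAdd _ i), ?_⟩
        change rename (R := K) ε.symm (sysZ f h h' _) = _
        rw [H930.sysZ_h', rename_rename, H930.sysZ_h, hsymm3]
      · refine ⟨Fin.natAdd _ (Fin.castAdd _ i), ?_⟩
        change rename (R := K) ε.symm (sysZ f h h' _) = _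
        rw [H930.sysZ_h, rename_rename, H930.sysZ_h', hsymm2]
  · rintro ⟨i, rfl⟩
    rcases H930.sysZ_cases f h h' i with ⟨j, hj⟩ | ⟨j, hj⟩ | ⟨j, hj⟩
    · refine ⟨Fin.castAdd _ j, ?_⟩
      change _ = rename (R := K) ε.symm (sysZ f h h' i)
      rw [hj, rename_rename, H930.sysZ_f, hsymm1]
    · refine ⟨Fin.natAdd _ (Fin.natAdd _ j), ?_⟩
      change _ = rename (R := K) ε.symm (sysZ f h h' i)
      rw [hj, rename_rename, H930.sysZ_h', hsymm2]
    · refine ⟨Fin.natAdd _ (Fin.castAdd _ j), ?_⟩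
      change _ = rename (R := K) ε.symm (sysZ f h h' i)
      rw [hj, rename_rename, H930.sysZ_h, hsymm3]

/-- membership in the germ prime of `Z+` with the two sides exchanged -/
theorem mem_germ_swap {c₀ c₁ c₂ : ℕ} (p : A ⊕ (B ⊕ C') → K)
    (f : Fin c₀ → MvPolynomial A K) (h : Fin c₁ → MvPolynomial (A ⊕ B) K)
    (h' : Fin c₂ → MvPolynomial (A ⊕ C') K) (P : MvPolynomial (A ⊕ (C' ⊕ B)) K) :
    P ∈ germ (p ∘ Equiv.sumCongr (Equiv.refl A) (Equiv.sumComm C' B)) (sysZ f h' h) ↔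
      rename (R := K) (Equiv.sumCongr (Equiv.refl A) (Equiv.sumComm C' B)) P ∈
        germ p (sysZ f h h') := by
  rw [H269.germ_congr_range _ (range_sysZ_swap f h h'), mem_germ_equiv]

/-- **[G*] for `Z+` over `hat X₂`** (base `(g, r)`, fibre `s`). -/
theorem gstar_Z2 {ι : Type*} (E : Finset ι) (x : ι → A ⊕ (B ⊕ C') → K) {c₀ c₁ c₂ : ℕ}
    (f : Fin c₀ → MvPolynomial A K) (h : Fin c₁ → MvPolynomial (A ⊕ B) K)
    (h' : Fin c₂ → MvPolynomial (A ⊕ C') K)
    (hf0 : ∀ e ∈ E, ∀ i, eval (x e ∘ Sum.inl) (f i) = 0)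
    (hh0 : ∀ e ∈ E, ∀ i, eval (x e ∘ Sum.map id Sum.inl) (h i) = 0)
    (hh0' : ∀ e ∈ E, ∀ i, eval (x e ∘ Sum.map id Sum.inr) (h' i) = 0)
    (hf : ∀ e ∈ E, LinearIndependent K (fun i => grad (x e ∘ Sum.inl) (f i)))
    (hh : ∀ e ∈ E, LinearIndependent K (fun i => fun b =>
      eval (x e ∘ Sum.map id Sum.inl) (pderiv (Sum.inr b) (h i))))
    (hh' : ∀ e ∈ E, LinearIndependent K (fun i => fun b =>
      eval (x e ∘ Sum.map id Sum.inr) (pderiv (Sum.inr b) (h' i))))
    {W : ℕ} (hW0 : 0 < W) (δ d₁ d₂ : ℕ → ℕ)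
    (hδ1 : ∀ j < c₀, 1 ≤ δ j) (hd₁1 : ∀ j < c₁, 1 ≤ d₁ j) (hd₂1 : ∀ j < c₂, 1 ≤ d₂ j)
    (hδ : ∀ i : Fin c₀, f i ∈ restrictTotalDegree A K (δ i))
    (hd₁ : ∀ i : Fin c₁, h i ∈ Vw K (wh A B W) (d₁ i))
    (hd₂ : ∀ i : Fin c₂, h' i ∈ Vw K (wh A C' W) (d₂ i))
    {v e₁ : ℕ} (hv : c₁ + v = Fintype.card B)
    (he : Fintype.card A + Fintype.card C' - (c₀ + c₂) = e₁ + 1)
    [DecidableEq (A ⊕ C' → K)] {T : ℕ} (Bd : Finset ι) (hBE : Bd ⊆ E)
    (hBd : ∀ e ∈ Bd, ∃ φ ∈ Vw K (wh A C' W) T,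
      (∀ e' ∈ E, germ (x e') (sysZ f h h') = germ (x e) (sysZ f h h') →
        eval (x e' ∘ Sum.map id Sum.inr) φ = 0) ∧
      rename (Sum.map id Sum.inr) φ ∉ germ (x e) (sysZ f h h'))
    {T' j : ℕ} (hj : j * T ≤ T' + W) :
    (W ^ (Fintype.card C' + Fintype.card B)) *
      (j * rkF (Vw K (wh A C' W)) (Bd.image fun e => x e ∘ Sum.map id Sum.inr) T') ≤
      CS e₁ v (Fintype.card A + Fintype.card C' + Fintype.card B) *
        (((∏ k ∈ Finset.range c₀, δ k) * (∏ k ∈ Finset.range c₂, d₂ k) *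
          ∏ k ∈ Finset.range c₁, d₁ k) * W ^ v) * (T' + W) ^ (e₁ + 1) := by
  classical
  set ε : A ⊕ (C' ⊕ B) ≃ A ⊕ (B ⊕ C') := Equiv.sumCongr (Equiv.refl A) (Equiv.sumComm C' B)
    with hε
  have e1 : ∀ e, (x e ∘ ε) ∘ Sum.inl = x e ∘ Sum.inl := fun e => by funext a; rfl
  have e2 : ∀ e, (x e ∘ ε) ∘ Sum.map id Sum.inl = x e ∘ Sum.map id Sum.inr := fun e => by
    funext a; rcases a with a | a <;> rfl
  have e3 : ∀ e, (x e ∘ ε) ∘ Sum.map id Sum.inr = x e ∘ Sum.map id Sum.inl := fun e => by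
    funext a; rcases a with a | a <;> rfl
  have hmem : ∀ e (P : MvPolynomial (A ⊕ (C' ⊕ B)) K), P ∈ germ (x e ∘ ε) (sysZ f h' h) ↔
      rename (R := K) ε P ∈ germ (x e) (sysZ f h h') := fun e P => mem_germ_swap (x e) f h h' P
  have hmem' : ∀ e (P : MvPolynomial (A ⊕ (B ⊕ C')) K), P ∈ germ (x e) (sysZ f h h') ↔
      rename (R := K) ε.symm P ∈ germ (x e ∘ ε) (sysZ f h' h) := by
    intro e P
    rw [hmem, rename_rename]
    have h5 : (ε ∘ ε.symm : A ⊕ (B ⊕ C') → A ⊕ (B ⊕ C')) = id := by funext t; simp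
    rw [h5, rename_id_apply]
  have key := gstar_Z1 (K := K) E (fun e => x e ∘ ε) f h' h
    (fun e he' => by rw [e1]; exact hf0 e he')
    (fun e he' => by rw [e2]; exact hh0' e he')
    (fun e he' => by rw [e3]; exact hh0 e he')
    (fun e he' => by rw [e1]; exact hf e he')
    (fun e he' => by rw [e2]; exact hh' e he')
    (fun e he' => by rw [e3]; exact hh e he')
    hW0 δ d₂ d₁ hδ1 hd₂1 hd₁1 hδ hd₂ hd₁ hv he Bd hBE
    (fun e he' => by
      obtain ⟨φ, h1, h2, h3⟩ := hBd e he'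
      refine ⟨φ, h1, ?_, ?_⟩
      · intro e' he'' hcl
        rw [e2]
        refine h2 e' he'' ?_
        ext P
        rw [hmem', hmem', hcl]
      · rw [hmem, rename_rename]
        have h6 : (ε ∘ Sum.map id Sum.inl : A ⊕ C' → A ⊕ (B ⊕ C')) = Sum.map id Sum.inr := by
          funext a; rcases a with a | a <;> rfl
        rw [h6]
        exact h3) hj
  have himg : (Bd.image fun e => (x e ∘ ε) ∘ Sum.map id Sum.inl) =
      Bd.image fun e => x e ∘ Sum.map id Sum.inr :=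
    Finset.image_congr fun e _ => e2 e
  rw [himg] at key
  exact key

end Z

end Vale.Agent.P054.T2.H701
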