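import Vale.Agent.P054.T2.H701.GStarZD
import Vale.Agent.P054.T2.H269.GStarNum
import Vale.Agent.P054.T2.H580.Inst
import Vale.Agent.P054.T2.H794.Leaves

/-!
# P054 / T2, (B-e): the leaf `GStarS`
-/

open MvPolynomial Module Finset

namespace Vale.Agent.P054.T2.H701

open H580 (Vw rkF wh kap US)
open H930 (germ grad ZData edgePt hatPt Pt)
open H686 (Crd mu meet)
open H307 (FI Ed cA JA NN xF xH1 xH2 xT wB van pts mem_van IsFam)
open H794 (AData Cw ZP ForZ ForAData GStarS)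

/-- the numbers of [G*] -/
theorem star_num {b k₀ i₀ i₁ N2 c₂ u e₁ s₀ s₁ S J rk Λ c : ℕ} (hb : 1 ≤ b)
    (hu : c₂ + u = N2) (hs : s₀ + s₁ + (k₀ + i₁) * (e₁ + 1) = k₀ * N2 + S)
    (hlo : b ^ S ≤ Λ * rk)
    {P0 P1 P2 : ℕ} (hP0 : P0 = b ^ s₀) (hP1 : P1 = b ^ s₁) (hP2 : P2 = b ^ ((k₀ + i₀) * c₂))
    (key : (b ^ k₀) ^ (N2 + N2) * (J * rk) ≤
      c * ((P0 * P1 * P2) * (b ^ k₀) ^ u) * (b ^ (k₀ + i₁) + b ^ k₀) ^ (e₁ + 1)) :
    J ≤ c * 2 ^ (e₁ + 1) * b ^ (i₀ * c₂) * Λ := by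
  have hrk : 0 < rk := by
    rcases Nat.eq_zero_or_pos rk with h | h
    · rw [h, mul_zero] at hlo
      have := Nat.one_le_pow S b hb
      omega
    · exact h
  have h1 : (b ^ (k₀ + i₁) + b ^ k₀) ^ (e₁ + 1) ≤
      2 ^ (e₁ + 1) * b ^ ((k₀ + i₁) * (e₁ + 1)) := by
    have h2 : b ^ k₀ ≤ b ^ (k₀ + i₁) := Nat.pow_le_pow_right hb (by omega)
    calc (b ^ (k₀ + i₁) + b ^ k₀) ^ (e₁ + 1) ≤ (2 * b ^ (k₀ + i₁)) ^ (e₁ + 1) :=
          Nat.pow_le_pow_left (by omega) _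
      _ = _ := by rw [mul_pow, ← pow_mul]
  have hpos : 0 < (b ^ k₀) ^ (N2 + N2) := Nat.pow_pos (Nat.pow_pos hb)
  have h2 : (b ^ k₀) ^ (N2 + N2) * (J * rk) ≤
      (b ^ k₀) ^ (N2 + N2) * (c * 2 ^ (e₁ + 1) * b ^ (i₀ * c₂) * b ^ S) := by
    refine key.trans ?_
    calc c * ((P0 * P1 * P2) * (b ^ k₀) ^ u) * (b ^ (k₀ + i₁) + b ^ k₀) ^ (e₁ + 1)
        ≤ c * ((P0 * P1 * P2) * (b ^ k₀) ^ u) *
            (2 ^ (e₁ + 1) * b ^ ((k₀ + i₁) * (e₁ + 1))) := Nat.mul_le_mul_left _ h1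
      _ = c * 2 ^ (e₁ + 1) *
            b ^ (s₀ + s₁ + (k₀ + i₁) * (e₁ + 1) + ((k₀ + i₀) * c₂ + k₀ * u)) := by
          have e1 : b ^ (s₀ + s₁ + (k₀ + i₁) * (e₁ + 1) + ((k₀ + i₀) * c₂ + k₀ * u)) =
              b ^ s₀ * b ^ s₁ * b ^ ((k₀ + i₁) * (e₁ + 1)) *
                (b ^ ((k₀ + i₀) * c₂) * b ^ (k₀ * u)) := by
            rw [pow_add b (s₀ + s₁ + (k₀ + i₁) * (e₁ + 1)), pow_add b (s₀ + s₁), pow_add b s₀,
              pow_add b ((k₀ + i₀) * c₂)]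
          rw [e1, hP0, hP1, hP2, pow_mul b k₀ u]
          generalize b ^ ((k₀ + i₁) * (e₁ + 1)) = Y1
          generalize b ^ ((k₀ + i₀) * c₂) = Y2
          ring
      _ = c * 2 ^ (e₁ + 1) * b ^ (k₀ * (N2 + N2) + (i₀ * c₂ + S)) := by
          congr 2
          rw [hs, ← hu]
          ring
      _ = _ := by rw [pow_add, pow_add, pow_mul]; ring
  have h3 : J * rk ≤ c * 2 ^ (e₁ + 1) * b ^ (i₀ * c₂) * b ^ S :=
    Nat.le_of_mul_le_mul_left h2 hpos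
  have h4 : J * rk ≤ (c * 2 ^ (e₁ + 1) * b ^ (i₀ * c₂) * Λ) * rk := by
    refine h3.trans ?_
    rw [mul_assoc _ Λ rk]
    exact Nat.mul_le_mul_left _ hlo
  exact Nat.le_of_mul_le_mul_right h4 hrk

/-- the exponents -/
theorem star_exp (N1 N2 k₀ i₀ i₁ c m : ℕ) (v v' : ℕ → ℕ)
    (hv : ∀ k l : ℕ, k ≤ l → l ≤ k₀ → v k ≤ v l)
    (hv' : ∀ k l : ℕ, k ≤ l → l ≤ i₀ → v' k ≤ v' l)
    (hconst : ∀ i, i₀ ≤ i → i < i₁ → v' i = v' i₀) (hi : i₀ ≤ i₁)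
    (hc : v k₀ = c) (hm : v' i₀ = c + m) (hge : ∀ i ≤ i₀, c ≤ v' i)
    (hcγ : c ≤ N1) (hmN : c + m ≤ N1 + N2) :
    (∑ j ∈ range c, kap (k₀ + 1) v j) + (∑ j ∈ range m, (k₀ + kap (i₀ + 1) v' (c + j))) +
      (k₀ + i₁) * (N1 + N2 - (c + m)) =
    k₀ * N2 + (∑ k ∈ range k₀, (N1 - v k) + ∑ i ∈ range i₁, (N1 + N2 - v' i)) := by
  have s1 : (∑ j ∈ range c, kap (k₀ + 1) v j) + k₀ * (N1 - c) =
      ∑ k ∈ range k₀, (N1 - v k) := by
    have := H580.sum_kap_window N1 (k₀ + 1) k₀ v (le_refl _)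
      (fun k l hkl hl => hv k l hkl (by omega)) (by simpa [hc] using hcγ)
      (fun k h1 h2 => by simp only [Nat.add_sub_cancel] at h1; omega)
    simpa [hc] using this
  have s2 : (∑ j ∈ range m, kap (i₀ + 1) v' (c + j)) + i₁ * (N1 + N2 - (c + m)) =
      ∑ i ∈ range i₁, (N1 + N2 - v' i) := by
    have h3 := H580.sum_kap_window (N1 + N2) (i₀ + 1) i₁ v' (by omega)
      (fun k l hkl hl => hv' k l hkl (by omega)) (by simpa [hm] using hmN)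
      (fun k h1 h2 => by simpa using hconst k (by simpa using h1) h2)
    simp only [Nat.add_sub_cancel, hm] at h3
    rw [Finset.sum_range_add] at h3
    have h4 : ∑ j ∈ range c, kap (i₀ + 1) v' j = 0 := by
      refine Finset.sum_eq_zero fun j hj => ?_
      refine H580.kap_eq_zero _ _ _ fun k hk => ?_
      have h5 := hge k (by omega)
      have h6 := Finset.mem_range.1 hj
      omega
    rw [h4, zero_add] at h3
    exact h3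
  rw [Finset.sum_add_distrib, Finset.sum_const, Finset.card_range, smul_eq_mul, ← s1, ← s2]
  have h1 : m * k₀ + k₀ * (N1 + N2 - (c + m)) = k₀ * N2 + k₀ * (N1 - c) := by
    rw [mul_comm m k₀, ← mul_add, ← mul_add]
    congr 1
    omega
  have h2 : (k₀ + i₁) * (N1 + N2 - (c + m)) =
      k₀ * (N1 + N2 - (c + m)) + i₁ * (N1 + N2 - (c + m)) := by ring
  omega

variable {n : ℕ}

theorem card_Crd' (n : ℕ) : Fintype.card (Crd n) = 2 * n + 1 := by simp [Crd]; ring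
theorem card_Pt' (n : ℕ) : Fintype.card (Pt n) = 2 * n + 2 := by simp [Pt]; ring

/-- from the raw inequality of [G*] to the conclusion -/
theorem star_close {k β C₁ L K₀ q C k₀ i₀ i₁ Wg : ℕ} {E' : Finset (Ed n ℝ)} {v : FI × ℕ → ℕ}
    (A : AData n k β C₁ L K₀ q C k₀ i₀ i₁ Wg E' v)
    (hC : 2 * (NN n * NN n) + 2 * n + 8 ≤ C) (hq : 128 ≤ q) (hβ : H269.Cg (NN n) ≤ β)
    {g : ℕ → FI × ℕ} {x : Ed n ℝ → Crd n ⊕ Pt n → ℝ} (hx : ∀ e, x e ∘ Sum.inl = xF e)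
    (hFH : IsFam (cA n ℝ (β ^ L)) (JA K₀) g K₀ x (fun _ => ())
      (Vw ℝ (wh (Crd n) (Pt n) ((β ^ L) ^ k₀))) ((β ^ L) ^ k₀) (β ^ L))
    (hwin : ∀ i, i₀ ≤ i → i ≤ i₁ → v (g i) = v (g i₀))
    {c₀ c₁ c₂ u e₁ : ℕ} (hc₀ : c₀ = v (FI.F, k₀)) (hc₁ : c₀ + c₁ = v (g i₀))
    (hu : c₂ + u = Fintype.card (Pt n))
    (he : Fintype.card (Crd n) + Fintype.card (Pt n) - (c₀ + c₁) = e₁ + 1)
    (Bd : Finset (Ed n ℝ)) (hB : Bd ⊆ E')
    [DecidableEq (Crd n ⊕ Pt n → ℝ)]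
    (key : (((β ^ L) ^ k₀) ^ (Fintype.card (Pt n) + Fintype.card (Pt n))) *
      ((β ^ L) ^ (i₁ - 1) * rkF (Vw ℝ (wh (Crd n) (Pt n) ((β ^ L) ^ k₀)))
        (Bd.image x) ((β ^ L) ^ (k₀ + i₁))) ≤
      CS e₁ u (Fintype.card (Crd n) + Fintype.card (Pt n) + Fintype.card (Pt n)) *
        (((∏ j ∈ Finset.range c₀, (β ^ L) ^ kap (k₀ + 1) (fun i => v (FI.F, i)) j) *
          (∏ j ∈ Finset.range c₁,
            (β ^ L) ^ (k₀ + kap (i₀ + 1) (fun i => v (g i)) (c₀ + j))) *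
          ∏ j ∈ Finset.range c₂, (β ^ L) ^ (k₀ + i₀)) * ((β ^ L) ^ k₀) ^ u) *
        ((β ^ L) ^ (k₀ + i₁) + (β ^ L) ^ k₀) ^ (e₁ + 1)) :
    64 * Bd.card ≤ E'.card := by
  classical
  by_contra hcon
  push Not at hcon
  have U : US n ℝ k β C₁ L K₀ q E' v := ⟨A.par, A.unif, A.ne⟩
  have hC1 : 1 ≤ C := by omega
  have hb1 := A.hb
  have hk₀ := A.k₀_le
  have hi : i₀ ≤ i₁ := A.i₀_le hC1
  have hi₁ : i₁ ≤ K₀ := (Nat.le_add_left _ _).trans (A.i₁_le_K hC1)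
  have hW1 : 1 ≤ (β ^ L) ^ k₀ := Nat.one_le_pow _ _ hb1.le
  have hlo := U.lowerHat hx (H580.card_H_le n) k₀ hk₀ hFH i₁ hi₁ hB (r := 64) (by omega) hcon
  have hpts : pts x Bd = Bd.image x := by
    rw [H580.pts_eq]
  rw [hpts] at hlo
  obtain ⟨f, hf, hind⟩ := U.sysF k₀ hk₀
  have hge0 := (U.sysHat hx k₀ hk₀ hFH f hf hind).1
  have hVH := H580.isFilt_Vw (k := ℝ) (wh (Crd n) (Pt n) ((β ^ L) ^ k₀))
    (H580.wh_ne_zero hW1)
  have hexp := star_exp (Fintype.card (Crd n)) (Fintype.card (Pt n)) k₀ i₀ i₁ c₀ c₁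
    (fun i => v (FI.F, i)) (fun i => v (g i))
    (fun k l hkl hl => A.unif.fam_mono A.ne A.hβ1 (H580.isFilt_total (k := ℝ)).mono hb1.le
      (U.famF) hkl (hl.trans hk₀))
    (fun k l hkl hl => A.unif.fam_mono A.ne A.hβ1 hVH.mono hb1.le
      hFH hkl (hl.trans (hi.trans hi₁)))
    (fun i h1 h2 => hwin i h1 h2.le) hi hc₀.symm hc₁.symm
    (fun i h1 => by rw [hc₀]; exact hge0 i (h1.trans (hi.trans hi₁)))
    (by rw [hc₀, card_Crd']; exact U.vF_le k₀ hk₀) (by omega)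
  rw [he] at hexp
  have h1 := star_num hb1.le hu hexp hlo (Finset.prod_pow_eq_pow_sum _ _ _)
    (Finset.prod_pow_eq_pow_sum _ _ _)
    (by rw [Finset.prod_const, Finset.card_range, ← pow_mul]) key
  -- the constants
  have hCS : CS e₁ u (Fintype.card (Crd n) + Fintype.card (Pt n) + Fintype.card (Pt n)) *
      2 ^ (e₁ + 1) ≤ β ^ L := by
    refine (H269.CS_le (by omega)).trans ?_
    have h2 : Fintype.card (Crd n) + Fintype.card (Pt n) + Fintype.card (Pt n) = NN n := by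
      rw [card_Crd', card_Pt']; unfold NN; omega
    rw [h2]
    exact hβ.trans (Nat.le_self_pow A.par.hL.ne' _)
  have hN1 : Fintype.card (Crd n) ≤ NN n := H580.card_Crd_le n
  have hN2 : Fintype.card (Crd n) + Fintype.card (Pt n) ≤ NN n := H580.card_H_le n
  have hloss := A.par.loss (M₁ := 0) (M₂ := Fintype.card (Crd n))
      (M₃ := Fintype.card (Crd n) + Fintype.card (Pt n)) (Nat.zero_le _) hN1 hN2 hk₀ hi₁
  rw [pow_zero, one_mul] at hloss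
  have hM1 : Fintype.card (Crd n) * Fintype.card (Crd n) ≤ NN n * NN n :=
    Nat.mul_le_mul hN1 hN1
  have hM2 : (Fintype.card (Crd n) + Fintype.card (Pt n)) *
      (Fintype.card (Crd n) + Fintype.card (Pt n)) ≤ NN n * NN n := Nat.mul_le_mul hN2 hN2
  set X₁ := ((C₁ ^ (Fintype.card (Crd n)) * (Fintype.card (Crd n)).factorial) ^ L) ^ k₀ with hX₁
  set X₂ := ((C₁ ^ (Fintype.card (Crd n) + Fintype.card (Pt n)) *
          (Fintype.card (Crd n) + Fintype.card (Pt n)).factorial) ^ L) ^ i₁ with hX₂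
  set M₁ := Fintype.card (Crd n) * Fintype.card (Crd n) with hM₁
  set M₂ := (Fintype.card (Crd n) + Fintype.card (Pt n)) *
      (Fintype.card (Crd n) + Fintype.card (Pt n)) with hM₂
  have hlen : i₀ * c₂ + M₁ + M₂ + 2 < i₁ - 1 := by
    have h3 := A.geo
    have h4 : c₂ ≤ C := by
      rw [card_Pt'] at hu
      omega
    have h5 : i₀ * c₂ ≤ C * i₀ := by
      rw [mul_comm]
      exact Nat.mul_le_mul_right _ h4
    omega
  have h6 : (β ^ L) ^ (i₁ - 1) ≤ (β ^ L) ^ (i₀ * c₂ + M₁ + M₂ + 2) := by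
    refine h1.trans ?_
    calc CS e₁ u (Fintype.card (Crd n) + Fintype.card (Pt n) + Fintype.card (Pt n)) *
          2 ^ (e₁ + 1) * (β ^ L) ^ (i₀ * c₂) *
          (X₁ * (β ^ L) ^ M₁ * (X₂ * (β ^ L) ^ M₂))
        ≤ β ^ L * (β ^ L) ^ (i₀ * c₂) * (X₁ * (β ^ L) ^ M₁ * (X₂ * (β ^ L) ^ M₂)) :=
          Nat.mul_le_mul_right _ (Nat.mul_le_mul_right _ hCS)
      _ = (X₁ * X₂) * (β ^ L * (β ^ L) ^ (i₀ * c₂) * ((β ^ L) ^ M₁ * (β ^ L) ^ M₂)) := by ring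
      _ ≤ β ^ L * (β ^ L * (β ^ L) ^ (i₀ * c₂) * ((β ^ L) ^ M₁ * (β ^ L) ^ M₂)) :=
          Nat.mul_le_mul_right _ hloss
      _ = _ := by rw [pow_add, pow_add, pow_add]; ring
  have h7 : (β ^ L) ^ (i₀ * c₂ + M₁ + M₂ + 2) < (β ^ L) ^ (i₁ - 1) :=
    Nat.pow_lt_pow_right hb1 hlen
  omega

/-- **(B-e) [G*]** -/
theorem gStarS (n : ℕ) : GStarS n := by
  classical
  refine ⟨2 * (NN n * NN n) + 2 * n + 8, 128, fun C hC q hq L K₀ =>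
    ⟨H269.Cg (NN n), fun β hβ k C₁ k₀ i₀ i₁ Wg E' v A E1 E2 c₀ c₁ c₂ σ₁ σ₂ v₁ v₂ Z hZ hv₁ hv₂
      hdense => ?_⟩⟩
  have U : US n ℝ k β C₁ L K₀ q E' v := ⟨A.par, A.unif, A.ne⟩
  have hC1 : 1 ≤ C := by omega
  have hb1 := A.hb
  have hi : i₀ ≤ i₁ := A.i₀_le hC1
  have hgeo := A.geo
  have hW1 : 1 ≤ (β ^ L) ^ k₀ := Nat.one_le_pow _ _ hb1.le
  have htight := A.tight
  have hp1 := A.pos1
  have hp2 := A.pos2
  have hc₀ := hZ.hc₀
  have hsub : E2 ⊆ E' := fun e he => Z.mem0 he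
  have hjT : (β ^ L) ^ (i₁ - 1) * (2 * (β ^ L) ^ k₀) ≤ (β ^ L) ^ (k₀ + i₁) + (β ^ L) ^ k₀ := by
    have h1 : (β ^ L) ^ (k₀ + i₁) = (β ^ L) ^ (i₁ - 1) * (β ^ L * (β ^ L) ^ k₀) := by
      rw [← pow_succ', ← pow_add]
      congr 1
      omega
    rw [h1]
    exact (Nat.mul_le_mul_left _ (Nat.mul_le_mul_right _ hb1)).trans (Nat.le_add_right _ _)
  have hfd : ∀ i : Fin c₀, Z.f i ∈ restrictTotalDegree (Crd n) ℝ
      ((β ^ L) ^ kap (k₀ + 1) (fun i => v (FI.F, i)) (i : ℕ)) := fun i => (hZ.f_van i).1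
  refine ⟨fun Bd hBE hBd => ?_, fun Bd hBE hBd => ?_⟩
  · have hu : c₂ + v₂ = Fintype.card (Pt n) := by rw [card_Pt']; omega
    obtain ⟨e₁, he⟩ : ∃ e₁, Fintype.card (Crd n) + Fintype.card (Pt n) - (c₀ + c₁) = e₁ + 1 := by
      rw [card_Crd', card_Pt']
      exact ⟨2 * n + 1 + (2 * n + 2) - (c₀ + c₁) - 1, by omega⟩
    have key := zgstar1 (k := ℝ) (W := (β ^ L) ^ k₀) Z hW1
      (fun j => (β ^ L) ^ kap (k₀ + 1) (fun i => v (FI.F, i)) j)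
      (fun j => (β ^ L) ^ (k₀ + kap (i₀ + 1) (fun i => v (FI.H1 k₀, i)) (c₀ + j)))
      (fun _ => (β ^ L) ^ (k₀ + i₀))
      (fun _ _ => Nat.one_le_pow _ _ hb1.le) (fun _ _ => Nat.one_le_pow _ _ hb1.le)
      (fun _ _ => Nat.one_le_pow _ _ hb1.le) hfd (fun i => (hZ.h_van i).1) Z.h'_mem hu he
      (T := 2 * (β ^ L) ^ k₀) Bd hBE hBd (T' := (β ^ L) ^ (k₀ + i₁)) hjT
    exact star_close A hC hq hβ (x := xH1) H580.xH1_inl (U.famH1 k₀ A.k₀_le) A.winH1 hc₀ hZ.hH1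
      hu he Bd (hBE.trans hsub) key
  · have hu : c₁ + v₁ = Fintype.card (Pt n) := by rw [card_Pt']; omega
    obtain ⟨e₁, he⟩ : ∃ e₁, Fintype.card (Crd n) + Fintype.card (Pt n) - (c₀ + c₂) = e₁ + 1 := by
      rw [card_Crd', card_Pt']
      exact ⟨2 * n + 1 + (2 * n + 2) - (c₀ + c₂) - 1, by omega⟩
    have hpt : ∀ e ∈ Bd, hatPt e.2 (mu e.2 e.1) = xH2 e := by
      intro e he'
      have h3 := A.adj e (hsub (hBE he'))
      rw [← H930.edgePt_comp_j2 h3.1 h3.2]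
      funext z
      rcases z with z | z <;> rfl
    have key := zgstar2 (k := ℝ) (W := (β ^ L) ^ k₀) Z hW1
      (fun j => (β ^ L) ^ kap (k₀ + 1) (fun i => v (FI.F, i)) j)
      (fun _ => (β ^ L) ^ (k₀ + i₀))
      (fun j => (β ^ L) ^ (k₀ + kap (i₀ + 1) (fun i => v (FI.H2 k₀, i)) (c₀ + j)))
      (fun _ _ => Nat.one_le_pow _ _ hb1.le) (fun _ _ => Nat.one_le_pow _ _ hb1.le)
      (fun _ _ => Nat.one_le_pow _ _ hb1.le) hfd Z.h_mem (fun i => (hZ.h'_van i).1) hu he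
      (T := 2 * (β ^ L) ^ k₀) Bd hBE (fun e he' => by
        obtain ⟨φ, h4, h5, h6⟩ := hBd e he'
        exact ⟨φ, h4, fun e' he'' hcl => by rw [hpt e' he'']; exact h5 e' he'' hcl, h6⟩)
      (T' := (β ^ L) ^ (k₀ + i₁)) hjT
    have himg : (Bd.image fun e => hatPt e.2 (mu e.2 e.1)) = Bd.image xH2 :=
      Finset.image_congr fun e he' => hpt e he'
    rw [himg] at key
    exact star_close A hC hq hβ (x := xH2) H580.xH2_inl (U.famH2 k₀ A.k₀_le) A.winH2 hc₀ hZ.hH2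
      hu he Bd (hBE.trans hsub) key

end Vale.Agent.P054.T2.H701
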