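import Vale.Agent.P054.T2.H580.FiltDense
import Vale.Agent.P054.T2.H930.Jets

/-!
# P054 / T2, row [G*]: class-dependent equations of low degree lie in the class prime

For finitely many classes with primes `P i` of dimension `e + 1`, points `Y i` of the class and
elements `f i` of level `T`, outside `P i`, vanishing on `Y i`: the union of the `Y i` has small
rank. Only the asymptotic bound for the sum of the Hilbert functions is used.
-/

open MvPolynomial Module

namespace Vale.Agent.P054.T2.H701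

open H580 (IsFilt hilbF rkF Vw)
open H163 (m mem_m)

/-! ### one class -/

section one

variable {k R : Type*} [Field k] [CommRing R] [Algebra k R] {V : ℕ → Submodule k R}

/-- many steps of size `T` -/
theorem hilbF_steps (hV : IsFilt V) {P J : Ideal R} (hPJ : P ≤ J) (f : R) (hfJ : f ∈ J)
    (hreg : ∀ g, f * g ∈ P → g ∈ P) {T : ℕ} (hf : f ∈ V T) (n : ℕ) (j : ℕ) :
    hilbF V P n + j * hilbF V J n ≤ hilbF V P (n + j * T) := by
  induction j with
  | zero => simp
  | succ j ih =>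
    have h1 := hV.hilbF_step hPJ f hfJ hreg T hf (n + (j + 1) * T)
      (by nlinarith [Nat.zero_le n])
    have h2 : n + (j + 1) * T - T = n + j * T := by
      rw [Nat.succ_mul]; omega
    rw [h2] at h1
    have h3 : hilbF V J n ≤ hilbF V J (n + (j + 1) * T) := hV.hilbF_mono J (Nat.le_add_right _ _)
    rw [Nat.succ_mul]
    omega

end one

variable {σ K : Type*} [Field K] {V : ℕ → Submodule K (MvPolynomial σ K)}

/-- **one class.** `hjet`: at the points of `Y` there are jets modulo `P` and `f` of dimension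
`choose (k + e) e`. -/
theorem one_class (hV : IsFilt V) {w₀ : ℕ} (hX : ∀ i, (X i : MvPolynomial σ K) ∈ V w₀)
    (P : Ideal (MvPolynomial σ K)) (f : MvPolynomial σ K) (hreg : ∀ g, f * g ∈ P → g ∈ P)
    {T : ℕ} (hf : f ∈ V T) (Y : Finset (σ → K)) {e : ℕ}
    (hjet : ∀ p ∈ Y, ∀ k, ∃ J : Ideal (MvPolynomial σ K), m p ^ (k + 1) ≤ J ∧ P ≤ J ∧ f ∈ J ∧
      (k + e).choose e ≤ finrank K (MvPolynomial σ K ⧸ J))
    {T' j : ℕ} (hj : j * T ≤ T' + w₀) (n : ℕ) :
    j * rkF V Y T' * (n + e).choose (e + 1) ≤ hilbF V P (n * (T' + w₀) + T') := by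
  classical
  choose! J hJ using hjet
  -- the ideal `P + (f)`
  have hlo : ∀ k, rkF V Y T' * (k + e).choose e ≤
      hilbF V (P ⊔ Ideal.span {f}) (k * (T' + w₀) + T') := by
    intro k
    have h1 := hV.lo hX (P ⊔ Ideal.span {f}) Y (fun p => J p k) (T := T') (k := k) (e := e)
      (fun p hp => (hJ p hp k).1)
      (fun p hp F hF _ => by
        have h2 : P ⊔ Ideal.span {f} ≤ J p k := by
          refine sup_le (hJ p hp k).2.1 ?_
          rw [Ideal.span_singleton_le_iff_mem]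
          exact (hJ p hp k).2.2.1
        exact h2 hF)
      (fun p hp => (hJ p hp k).2.2.2)
    have h3 : (k + 1) * T' + k * w₀ = k * (T' + w₀) + T' := by ring
    rwa [h3] at h1
  induction n with
  | zero =>
    have : (0 + e).choose (e + 1) = 0 := Nat.choose_eq_zero_of_lt (by omega)
    rw [this, Nat.mul_zero]
    exact Nat.zero_le _
  | succ n ih =>
    have h1 := hilbF_steps hV (P := P) (J := P ⊔ Ideal.span {f}) le_sup_left f
      (Ideal.mem_sup_right (Ideal.mem_span_singleton_self f)) hreg hf (n * (T' + w₀) + T') j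
    have h2 : hilbF V P (n * (T' + w₀) + T' + j * T) ≤
        hilbF V P ((n + 1) * (T' + w₀) + T') := by
      refine hV.hilbF_mono P ?_
      have : (n + 1) * (T' + w₀) = n * (T' + w₀) + (T' + w₀) := by ring
      omega
    have h3 := Nat.mul_le_mul_left j (hlo n)
    have h4 : (n + 1 + e).choose (e + 1) = (n + e).choose e + (n + e).choose (e + 1) := by
      rw [show n + 1 + e = (n + e) + 1 by ring, Nat.choose_succ_succ]
    calc j * rkF V Y T' * (n + 1 + e).choose (e + 1)
        = j * (rkF V Y T' * (n + e).choose e) + j * rkF V Y T' * (n + e).choose (e + 1) := by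
          rw [h4]; ring
      _ ≤ j * hilbF V (P ⊔ Ideal.span {f}) (n * (T' + w₀) + T') +
            hilbF V P (n * (T' + w₀) + T') := Nat.add_le_add h3 ih
      _ ≤ _ := by omega

/-- **[G*], abstract form.** -/
theorem gstar [DecidableEq (σ → K)] (hV : IsFilt V) {w₀ : ℕ}
    (hX : ∀ i, (X i : MvPolynomial σ K) ∈ V w₀) (hw₀ : 0 < w₀)
    {ι : Type*} (A : Finset ι) (P : ι → Ideal (MvPolynomial σ K))
    (hP : ∀ i ∈ A, (P i).IsPrime) (f : ι → MvPolynomial σ K) (hfP : ∀ i ∈ A, f i ∉ P i)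
    {T : ℕ} (hf : ∀ i ∈ A, f i ∈ V T) (Y : ι → Finset (σ → K)) {e : ℕ}
    (hjet : ∀ i ∈ A, ∀ p ∈ Y i, ∀ k, ∃ J : Ideal (MvPolynomial σ K), m p ^ (k + 1) ≤ J ∧
      P i ≤ J ∧ f i ∈ J ∧ (k + e).choose e ≤ finrank K (MvPolynomial σ K ⧸ J))
    {D a : ℕ} (hsum : ∀ n, ∑ i ∈ A, hilbF V (P i) n ≤ D * (n + a) ^ (e + 1))
    {T' j : ℕ} (hj : j * T ≤ T' + w₀) :
    j * rkF V (A.biUnion Y) T' ≤ (e + 1).factorial * D * (T' + w₀) ^ (e + 1) := by
  obtain ⟨w, rfl⟩ : ∃ w, w₀ = w + 1 := ⟨w₀ - 1, by omega⟩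
  have h1 : ∀ k, 0 ≤ k → (j * ∑ i ∈ A, rkF V (Y i) T') * (k + (e + 1)).choose (e + 1) ≤
      D * ((k + 1) * ((T' + w) + 1) + (T' + a)) ^ (e + 1) := by
    intro k _
    have h2 : ∀ i ∈ A, j * rkF V (Y i) T' * (k + (e + 1)).choose (e + 1) ≤
        hilbF V (P i) ((k + 1) * (T' + (w + 1)) + T') := by
      intro i hi
      have := one_class hV hX (P i) (f i)
        (fun g hg => ((hP i hi).mem_or_mem hg).resolve_left (hfP i hi)) (hf i hi) (Y i)
        (hjet i hi) hj (k + 1)
      rwa [show k + 1 + e = k + (e + 1) by ring] at this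
    calc (j * ∑ i ∈ A, rkF V (Y i) T') * (k + (e + 1)).choose (e + 1)
        = ∑ i ∈ A, j * rkF V (Y i) T' * (k + (e + 1)).choose (e + 1) := by
          rw [Finset.mul_sum, Finset.sum_mul]
      _ ≤ ∑ i ∈ A, hilbF V (P i) ((k + 1) * (T' + (w + 1)) + T') := Finset.sum_le_sum h2
      _ ≤ D * ((k + 1) * (T' + (w + 1)) + T' + a) ^ (e + 1) := hsum _
      _ = _ := by ring
  have h3 := H163.lim_bound h1
  refine le_trans ?_ (le_trans h3 (le_of_eq (by ring)))
  exact Nat.mul_le_mul_left j (hV.rkF_biUnion_le A Y T')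

/-! ### jets modulo one more equation -/

variable [Fintype σ] [DecidableEq σ]

/-- jets modulo one more equation `g` with `g(p) = 0` -/
theorem finrank_quot_J_sup {c : ℕ} (p : σ → K) (F : Fin c → MvPolynomial σ K)
    (hF : ∀ i, eval p (F i) = 0) (hind : LinearIndependent K (fun i => H930.grad p (F i)))
    (g : MvPolynomial σ K) (hg : eval p g = 0) {e : ℕ} (he : Fintype.card σ - c = e + 1)
    (k : ℕ) :
    (k + e).choose e ≤
      finrank K (MvPolynomial σ K ⧸ (H930.J p F (k + 1) ⊔ Ideal.span {g})) := by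
  classical
  set J1 := H930.J p F (k + 1) with hJ1
  set J0 := H930.J p F k with hJ0
  have hfin1 : Module.Finite K (MvPolynomial σ K ⧸ J1) := H930.finite_quot_J p F hF hind (k + 1)
  have hfin0 : Module.Finite K (MvPolynomial σ K ⧸ J0) := H930.finite_quot_J p F hF hind k
  -- multiplication by `g` from `R/J0` to `R/J1`
  have hgJ : ∀ x ∈ J0, g * x ∈ J1 := by
    intro x hx
    have h1 : g ∈ H930.J p F 1 := by
      rw [H930.J_one p F hF]; exact hg
    have := H930.J_mul_mem h1 hx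
    rwa [show 1 + k = k + 1 by ring] at this
  let φ : (MvPolynomial σ K ⧸ J1) →ₗ[K] (MvPolynomial σ K ⧸ (J1 ⊔ Ideal.span {g})) :=
    (Ideal.Quotient.factorₐ K (le_sup_left : J1 ≤ J1 ⊔ Ideal.span {g})).toLinearMap
  have hφs : LinearMap.range φ = ⊤ := by
    rw [LinearMap.range_eq_top]
    intro y
    obtain ⟨x, rfl⟩ := Ideal.Quotient.mk_surjective y
    exact ⟨Ideal.Quotient.mk J1 x, rfl⟩
  let ψ : (MvPolynomial σ K ⧸ J0) →ₗ[K] (MvPolynomial σ K ⧸ J1) :=
    Submodule.liftQ (J0.restrictScalars K)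
      ((Ideal.Quotient.mkₐ K J1).toLinearMap ∘ₗ LinearMap.mulLeft K g) (by
        intro x hx
        rw [LinearMap.mem_ker]
        exact Ideal.Quotient.eq_zero_iff_mem.2 (hgJ x hx))
  have hker : LinearMap.ker φ ≤ LinearMap.range ψ := by
    intro y hy
    obtain ⟨x, rfl⟩ := Ideal.Quotient.mk_surjective y
    have h1 : x ∈ J1 ⊔ Ideal.span {g} := Ideal.Quotient.eq_zero_iff_mem.1 hy
    obtain ⟨a, ha, b, hb, rfl⟩ := Submodule.mem_sup.1 h1
    obtain ⟨z, rfl⟩ := Ideal.mem_span_singleton'.1 hb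
    refine ⟨Submodule.Quotient.mk z, ?_⟩
    change Ideal.Quotient.mk J1 (g * z) = Ideal.Quotient.mk J1 (a + z * g)
    rw [Ideal.Quotient.eq]
    have : g * z - (a + z * g) = -a := by ring
    rw [this]
    exact J1.neg_mem ha
  have h1 := LinearMap.finrank_range_add_finrank_ker φ
  rw [hφs, finrank_top] at h1
  have h2 : finrank K (LinearMap.ker φ) ≤ finrank K (MvPolynomial σ K ⧸ J0) :=
    (Submodule.finrank_mono hker).trans (LinearMap.finrank_range_le ψ)
  have h3 : finrank K (MvPolynomial σ K ⧸ J1) = (k + (e + 1)).choose (e + 1) := by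
    rw [hJ1, H930.finrank_quot_J p F hF hind k, he]
  have h4 : finrank K (MvPolynomial σ K ⧸ J0) = (k + e).choose (e + 1) := by
    rcases k with _ | k
    · have h5 : J0 = ⊤ := H930.J_zero p F
      rw [h5]
      have : Subsingleton (MvPolynomial σ K ⧸ (⊤ : Ideal (MvPolynomial σ K))) :=
        Ideal.Quotient.subsingleton_iff.2 rfl
      rw [finrank_zero_of_subsingleton]
      exact (Nat.choose_eq_zero_of_lt (by omega)).symm
    · rw [hJ0, H930.finrank_quot_J p F hF hind k, he]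
      congr 1
      ring
  have h5 : (k + (e + 1)).choose (e + 1) = (k + e).choose e + (k + e).choose (e + 1) := by
    rw [show k + (e + 1) = (k + e) + 1 by ring, Nat.choose_succ_succ]
  omega

/-- **[G*], concrete form.** Classes `i ∈ A` with systems `F i` (`c` equations in `card σ`
variables, `card σ - c = e + 1`), `P i` = germ prime at every point of the class, `Y i` points of
the class at which the class-dependent `f i ∈ V T`, `f i ∉ P i`, vanishes. -/
theorem gstar_germ [DecidableEq (σ → K)] (hV : IsFilt V) {w₀ : ℕ}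
    (hX : ∀ i, (X i : MvPolynomial σ K) ∈ V w₀) (hw₀ : 0 < w₀)
    {ι : Type*} (A : Finset ι) (P : ι → Ideal (MvPolynomial σ K))
    (hP : ∀ i ∈ A, (P i).IsPrime) (f : ι → MvPolynomial σ K) (hfP : ∀ i ∈ A, f i ∉ P i)
    {T : ℕ} (hf : ∀ i ∈ A, f i ∈ V T) (Y : ι → Finset (σ → K)) {c e : ℕ}
    (he : Fintype.card σ - c = e + 1) (F : ι → Fin c → MvPolynomial σ K)
    (hFY : ∀ i ∈ A, ∀ p ∈ Y i, ∀ l, eval p (F i l) = 0)
    (hind : ∀ i ∈ A, ∀ p ∈ Y i, LinearIndependent K (fun l => H930.grad p (F i l)))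
    (hPY : ∀ i ∈ A, ∀ p ∈ Y i, P i ≤ H930.germ p (F i))
    (hfY : ∀ i ∈ A, ∀ p ∈ Y i, eval p (f i) = 0)
    {D a : ℕ} (hsum : ∀ n, ∑ i ∈ A, hilbF V (P i) n ≤ D * (n + a) ^ (e + 1))
    {T' j : ℕ} (hj : j * T ≤ T' + w₀) :
    j * rkF V (A.biUnion Y) T' ≤ (e + 1).factorial * D * (T' + w₀) ^ (e + 1) := by
  refine gstar hV hX hw₀ A P hP f hfP hf Y ?_ hsum hj
  intro i hi p hp k
  refine ⟨H930.J p (F i) (k + 1) ⊔ Ideal.span {f i}, ?_, ?_, ?_, ?_⟩
  · exact (H930.pow_le_J p (F i) (k + 1)).trans le_sup_left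
  · exact ((hPY i hi p hp).trans (H930.germ_le_J p (F i) (k + 1))).trans le_sup_left
  · exact Ideal.mem_sup_right (Ideal.mem_span_singleton_self _)
  · exact finrank_quot_J_sup p (F i) (hFY i hi p hp) (hind i hi p hp) (f i) (hfY i hi p hp) he k

end Vale.Agent.P054.T2.H701
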