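import Vale.Agent.P054.T2.H701.GStarZ
import Vale.Agent.P054.T2.H275.Vert
import Vale.Agent.P054.T2.H395.Comap
import Vale.Agent.P054.T2.H269.GermSum
import Vale.Agent.P054.T2.H580.Hat
import Vale.Agent.P054.T2.H930.Block

/-!
# P054 / T2, row (S1) / B12: [G*] for the classes of one system of germs

`F : Fin (c + m) → K[α ⊕ β]`: the first `c` equations `F₀` only involve `α`, the last `m` have
independent `β`-gradients. Classes of edges = equal germ primes of `F`. For all but few edges `e`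
of a set `A` all of whose dense subsets have large rank in `α`-space, every `φ ∈ K[α]` of level
`T` which vanishes on the class of `e` lies in the prime of `e`.
-/

open MvPolynomial Module

namespace Vale.Agent.P054.T2.H701

open H580 (IsFilt hilbF rkF Vw)
open H930 (germ grad)

section vind

variable {K : Type*} [Field K] {α β : Type*}

theorem emb2_inl {v : ℕ} (b : Fin v → β) (G : MvPolynomial (Fin v) (MvPolynomial α K)) :
    emb2 (Sum.inl : α → α ⊕ β) (fun l => Sum.inr (b l)) G = H275.Th K b G := rfl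

variable [Fintype α] [Fintype β] [DecidableEq α] [DecidableEq β]

/-- **vertical independence for block systems.** -/
theorem exists_vind [CharZero K] {c m : ℕ} (p : α ⊕ β → K)
    (F : Fin (c + m) → MvPolynomial (α ⊕ β) K) (F₀ : Fin c → MvPolynomial α K)
    (hleft : ∀ i, F (Fin.castAdd m i) = rename Sum.inl (F₀ i))
    (hF : ∀ i, eval p (F i) = 0) (hind : LinearIndependent K (fun i => grad p (F i))) {v : ℕ}
    (hv : m + v ≤ Fintype.card β) :
    ∃ b : Fin v → β, VInd (germ p F) (Sum.inl : α → α ⊕ β) (fun l => Sum.inr (b l)) := by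
  classical
  obtain ⟨e, he, φ, a, ζ, hζ, hA, hφf, hφJ, -⟩ := H930.exists_germ p F hF hind
  have hdom : IsDomain (MvPowerSeries (Fin e) K) := NoZeroDivisors.to_isDomain _
  let L := FractionRing (MvPowerSeries (Fin e) K)
  let ιL : MvPowerSeries (Fin e) K →ₐ[K] L := IsScalarTower.toAlgHom K _ _
  have hιL : Function.Injective ιL := IsFractionRing.injective (MvPowerSeries (Fin e) K) L
  obtain ⟨b, hb⟩ := H275.exists_indep_of_rank p F hF hind he φ a ζ hζ hA hφf hφJ ιL hιL v (by
    refine le_trans (Nat.add_le_add_right ?_ v) hv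
    -- only the last `m` rows are nonzero
    rw [Matrix.rank_eq_finrank_span_row]
    have h1 : Submodule.span L (Set.range ((Matrix.of fun i b => pderiv (Sum.inr b) (F i) :
        Matrix (Fin (c + m)) β (MvPolynomial (α ⊕ β) K)).map (fun F => ιL (φ F))).row) ≤
        Submodule.span L (Set.range fun j : Fin m => ((Matrix.of fun i b =>
          pderiv (Sum.inr b) (F i) :
          Matrix (Fin (c + m)) β (MvPolynomial (α ⊕ β) K)).map (fun F => ιL (φ F))).row
            (Fin.natAdd c j)) := by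
      rw [Submodule.span_le]
      rintro _ ⟨i, rfl⟩
      refine Fin.addCases (fun i => ?_) (fun i => ?_) i
      · have h2 : ((Matrix.of fun i b => pderiv (Sum.inr b) (F i) :
            Matrix (Fin (c + m)) β (MvPolynomial (α ⊕ β) K)).map (fun F => ιL (φ F))).row
              (Fin.castAdd m i) = 0 := by
          funext b
          change ιL (φ (pderiv (Sum.inr b) (F (Fin.castAdd m i)))) = 0
          rw [hleft, H275.pderiv_inr_rename, map_zero, map_zero]
        rw [h2]
        exact Submodule.zero_mem _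
      · exact Submodule.subset_span ⟨i, rfl⟩
    refine (Submodule.finrank_mono h1).trans ?_
    refine (finrank_range_le_card _).trans ?_
    rw [Fintype.card_fin])
  exact ⟨b, hb⟩

end vind

section sys

variable {K : Type*} [Field K] [CharZero K] {α β : Type*}
variable [Fintype α] [Fintype β] [DecidableEq α] [DecidableEq β]

/-- the constant of [G*] -/
def CS (e v N : ℕ) : ℕ := (e + 1).factorial * (2 ^ v * (v + 1) ^ (e + 1 + v) * (N + 2) ^ N)

/-- **[G*] for the classes of one system.** -/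
theorem gstar_sys {ι : Type*} (A : Finset ι) (x : ι → α ⊕ β → K) {c m : ℕ}
    (F₀ : Fin c → MvPolynomial α K) (F : Fin (c + m) → MvPolynomial (α ⊕ β) K)
    (hleft : ∀ i, F (Fin.castAdd m i) = rename Sum.inl (F₀ i))
    (hF : ∀ e ∈ A, ∀ i, eval (x e) (F i) = 0)
    (hind₀ : ∀ e ∈ A, LinearIndependent K (fun i => grad (fun a => x e (Sum.inl a)) (F₀ i)))
    (hindr : ∀ e ∈ A, LinearIndependent K
      (fun (j : Fin m) (z : β) => eval (x e) (pderiv (Sum.inr z) (F (Fin.natAdd c j)))))
    (w : α → ℕ) {W : ℕ} (hw1 : ∀ a, w a ≠ 0) (hwW : ∀ a, w a ≤ W) (hW0 : 0 < W)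
    (d : ℕ → ℕ) (hd1 : ∀ j < c + m, 1 ≤ d j)
    (hd : ∀ j : Fin (c + m), F j ∈ Vw K (Sum.elim w (fun _ : β => W)) (d j))
    {v e₁ : ℕ} (hv : m + v = Fintype.card β) (he : Fintype.card α - c = e₁ + 1)
    [DecidableEq (α → K)] {T : ℕ} (Bd : Finset ι) (hBA : Bd ⊆ A)
    (hBd : ∀ e ∈ Bd, ∃ φ ∈ Vw K w T,
      (∀ e' ∈ A, germ (x e') F = germ (x e) F → eval (fun a => x e' (Sum.inl a)) φ = 0) ∧
      rename Sum.inl φ ∉ germ (x e) F)
    {T' j : ℕ} (hj : j * T ≤ T' + W) :
    ((∏ a, w a) * W ^ Fintype.card β) *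
      (j * rkF (Vw K w) (Bd.image fun e a => x e (Sum.inl a)) T') ≤
      CS e₁ v (Fintype.card α + Fintype.card β) *
        ((∏ j ∈ Finset.range (c + m), d j) * W ^ v) * (T' + W) ^ (e₁ + 1) := by
  classical
  rcases Bd.eq_empty_or_nonempty with hemp | hne
  · subst hemp
    have h0 : rkF (Vw K w) ((∅ : Finset ι).image fun e a => x e (Sum.inl a)) T' = 0 := by
      have := H580.rkF_le_card (Vw K w) ((∅ : Finset ι).image fun e a => x e (Sum.inl a)) T'
      rw [Finset.image_empty, Finset.card_empty] at this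
      rw [Finset.image_empty]
      omega
    rw [h0]
    simp
  obtain ⟨e₀, he₀⟩ := hne
  have hne : Nonempty ι := ⟨e₀⟩
  set wz : α ⊕ β → ℕ := Sum.elim w (fun _ => W) with hwz
  have hwz0 : ∀ y, wz y ≠ 0 := by
    rintro (y | y)
    · exact hw1 y
    · exact hW0.ne'
  have hwzW : ∀ y, wz y ≤ W := by
    rintro (y | y)
    · exact hwW y
    · exact le_rfl
  have hV : IsFilt (Vw K wz) := H580.isFilt_Vw _ hwz0
  have hind : ∀ e ∈ A, LinearIndependent K (fun i => grad (x e) (F i)) := fun e he =>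
    H930.grad_block_linInd (x e) F F₀ hleft (hind₀ e he) (hindr e he)
  -- the classes
  set Cl : Finset (Ideal (MvPolynomial (α ⊕ β) K)) := Bd.image fun e => germ (x e) F with hCl
  have hrep : ∀ Q ∈ Cl, ∃ e ∈ Bd, germ (x e) F = Q := fun Q hQ => Finset.mem_image.1 hQ
  choose! rep hrepB hrepQ using hrep
  have hφ : ∀ Q ∈ Cl, ∃ φ ∈ Vw K w T,
      (∀ e' ∈ A, germ (x e') F = Q → eval (fun a => x e' (Sum.inl a)) φ = 0) ∧
      rename Sum.inl φ ∉ Q := by
    intro Q hQ
    obtain ⟨φ, h1, h2, h3⟩ := hBd (rep Q) (hrepB Q hQ)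
    refine ⟨φ, h1, fun e' he' h => h2 e' he' (h.trans (hrepQ Q hQ).symm), ?_⟩
    rw [hrepQ Q hQ] at h3
    exact h3
  choose! f hfT hf0 hfQ using hφ
  have hbvar : ∀ Q, ∃ b : Fin v → β, Q ∈ Cl →
      VInd Q (Sum.inl : α → α ⊕ β) (fun l => Sum.inr (b l)) := by
    intro Q
    by_cases hQ : Q ∈ Cl
    · have h1 := hBA (hrepB Q hQ)
      obtain ⟨b, hb⟩ := exists_vind (x (rep Q)) F F₀ hleft (hF _ h1) (hind _ h1) hv.le
      rw [hrepQ Q hQ] at hb
      exact ⟨b, fun _ => hb⟩
    · obtain ⟨b, -⟩ := exists_vind (x e₀) F F₀ hleft (hF _ (hBA he₀)) (hind _ (hBA he₀)) hv.le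
      exact ⟨b, fun h => absurd h hQ⟩
  choose b hb using hbvar
  -- the sum over the classes
  obtain ⟨a, ha⟩ := H269.germs_additive hV (w₀ := W)
    (fun y => H580.Vw_mono _ (hwzW y) (H580.X_mem_Vw wz y)) Bd x F
    (fun e he => hF e (hBA he)) (fun e he => hind e (hBA he))
  set M := (∏ a, w a) * W ^ Fintype.card β with hM
  have hMw : M = ∏ y, wz y := by
    rw [hM, Fintype.prod_sum_type]
    simp [hwz]
  have hcα : c + (e₁ + 1) = Fintype.card α := by omega
  have hsum : ∀ n, W + 1 ≤ n → M * ∑ Q ∈ Cl, hilbF (Vw K wz) Q n ≤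
      ((Fintype.card α + Fintype.card β + 2) ^ (Fintype.card α + Fintype.card β) *
        ∏ j ∈ Finset.range (c + m), d j) * (n + a) ^ (e₁ + 1 + v) := by
    intro n hn
    have h1 := ha n
    have h2 := H580.up_Vw wz hwz0 x Bd F d hd1 hd (fun e he => hF e (hBA he))
      (fun e he => hind e (hBA he)) (by rw [Fintype.card_sum]; omega) (n + a)
      (fun y => (hwzW y).trans (by omega)) (by omega)
    have h3 : Fintype.card (α ⊕ β) - (c + m) = e₁ + 1 + v := by
      rw [Fintype.card_sum]; omega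
    rw [h3, Fintype.card_sum] at h2
    calc M * ∑ Q ∈ Cl, hilbF (Vw K wz) Q n
        ≤ M * hilbF (Vw K wz) (⨅ e ∈ Bd, germ (x e) F) (n + a) := Nat.mul_le_mul_left _ h1
      _ = (∏ y, wz y) * hilbF (Vw K wz) (⨅ e ∈ Bd, germ (x e) F) (n + a) := by rw [hMw]
      _ ≤ (c + m + 2) ^ (Fintype.card α + Fintype.card β) *
          ((∏ j ∈ Finset.range (c + m), d j) * (n + a) ^ (e₁ + 1 + v)) := h2
      _ ≤ (Fintype.card α + Fintype.card β + 2) ^ (Fintype.card α + Fintype.card β) *
          ((∏ j ∈ Finset.range (c + m), d j) * (n + a) ^ (e₁ + 1 + v)) :=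
          Nat.mul_le_mul_right _ (Nat.pow_le_pow_left (by omega) _)
      _ = _ := by ring
  have key := gstar_Z (K := K) (α := α) (τ := α ⊕ β) Cl (fun Q => Q)
    (fun Q hQ => by
      have h1 := hBA (hrepB Q hQ)
      have h2 := H930.germ_isPrime (hF _ h1) (hind _ h1)
      rwa [hrepQ Q hQ] at h2)
    Sum.inl (v := v) (fun Q l => Sum.inr (b Q l)) hb w wz (fun _ => rfl) hwz0 hW0 hwzW
    f hfT hfQ
    (fun Q => (Bd.filter fun e => germ (x e) F = Q).image fun e a => x e (Sum.inl a))
    he (fun _ => F₀) ?_ ?_ ?_ ?_ hsum hj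
  · have h1 : Cl.biUnion (fun Q => (Bd.filter fun e => germ (x e) F = Q).image
        fun e a => x e (Sum.inl a)) = Bd.image fun e a => x e (Sum.inl a) := by
      ext y
      simp only [Finset.mem_biUnion, Finset.mem_image, Finset.mem_filter]
      constructor
      · rintro ⟨Q, -, e, ⟨he, -⟩, rfl⟩
        exact ⟨e, he, rfl⟩
      · rintro ⟨e, he, rfl⟩
        exact ⟨germ (x e) F, Finset.mem_image_of_mem _ he, e, ⟨he, rfl⟩, rfl⟩
    rw [h1] at key
    refine key.trans (le_of_eq ?_)
    unfold CS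
    ring
  · intro Q hQ y hy l
    simp only [Finset.mem_image, Finset.mem_filter] at hy
    obtain ⟨e, ⟨he, -⟩, rfl⟩ := hy
    have h1 := hF e (hBA he) (Fin.castAdd m l)
    rw [hleft, eval_rename] at h1
    exact h1
  · intro Q hQ y hy
    simp only [Finset.mem_image, Finset.mem_filter] at hy
    obtain ⟨e, ⟨he, -⟩, rfl⟩ := hy
    exact hind₀ e (hBA he)
  · intro Q hQ y hy
    simp only [Finset.mem_image, Finset.mem_filter] at hy
    obtain ⟨e, ⟨he, hQe⟩, rfl⟩ := hy
    have h1 := H395.comap_germ (x e) F₀ F hleft (hF e (hBA he)) (hind₀ e (hBA he))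
      (hindr e (hBA he))
    rw [← hQe]
    exact h1.le
  · intro Q hQ y hy
    simp only [Finset.mem_image, Finset.mem_filter] at hy
    obtain ⟨e, ⟨he, hQe⟩, rfl⟩ := hy
    exact hf0 Q hQ e (hBA he) hQe

end sys

end Vale.Agent.P054.T2.H701
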