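import Vale.Agent.P054.T2.H701.GStar

/-!
# P054 / T2, row (S1): [G*] at the level of `Z+`

Classes `a` with primes `Q a` of `K[τ]` (`τ` = variables `(g, s, r)`), `α` = the variables `(g, s)`
(or `(g, r)`), `i : α → τ`. Equations `f a ∈ K[α]`, outside `Q a`, vanishing at the points of the
class.
-/

open MvPolynomial Module

namespace Vale.Agent.P054.T2.H701

open H580 (IsFilt hilbF rkF Vw)
open H163 (m mem_m)

variable {K : Type*} [Field K] {α τ : Type*}

/-! ### vertical coordinates -/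

/-- `K[α][Z_1..Z_v] → K[τ]`, `Z_l ↦ x_(jv l)` -/
noncomputable def emb2 (i : α → τ) {v : ℕ} (jv : Fin v → τ) :
    MvPolynomial (Fin v) (MvPolynomial α K) →+* MvPolynomial τ K :=
  eval₂Hom (rename i : MvPolynomial α K →ₐ[K] MvPolynomial τ K).toRingHom (fun l => X (jv l))

/-- the variables `x_(jv l)` are algebraically independent over `K[α] / (Q ∩ K[α])` modulo `Q` -/
def VInd (Q : Ideal (MvPolynomial τ K)) (i : α → τ) {v : ℕ} (jv : Fin v → τ) : Prop :=
  ∀ G : MvPolynomial (Fin v) (MvPolynomial α K), emb2 i jv G ∈ Q →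
    ∀ β, (rename i (coeff β G) : MvPolynomial τ K) ∈ Q

theorem emb2_monomial (i : α → τ) {v : ℕ} (jv : Fin v → τ) (β : Fin v →₀ ℕ)
    (c : MvPolynomial α K) :
    emb2 i jv (monomial β c) = rename i c * ∏ l, X (jv l) ^ β l := by
  unfold emb2
  rw [coe_eval₂Hom, eval₂_monomial, Finsupp.prod_fintype _ _ (fun _ => pow_zero _)]
  rfl

theorem rename_mem_Vw (i : α → τ) (w : α → ℕ) (wz : τ → ℕ) (hi : ∀ x, wz (i x) = w x) {a : ℕ}
    {G : MvPolynomial α K} (hG : G ∈ Vw K w a) : (rename i G : MvPolynomial τ K) ∈ Vw K wz a := by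
  classical
  rw [G.as_sum, map_sum]
  refine Submodule.sum_mem _ fun d hd => ?_
  rw [rename_monomial, H580.mem_Vw]
  intro s hs
  have h1 : s = Finsupp.mapDomain i d := by
    by_contra hne
    rw [MvPolynomial.mem_support_iff, coeff_monomial, if_neg (Ne.symm hne)] at hs
    exact hs rfl
  subst h1
  have h2 := (H580.mem_Vw.1 hG) d hd
  refine le_trans (le_of_eq ?_) h2
  rw [Finsupp.weight_apply, Finsupp.weight_apply,
    Finsupp.sum_mapDomain_index (by simp) (by intros; simp [add_mul])]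
  refine Finsupp.sum_congr fun x _ => ?_
  rw [hi]

theorem prod_mem_Vw {v : ℕ} (wz : τ → ℕ) {W : ℕ} (jv : Fin v → τ) (hW : ∀ l, wz (jv l) ≤ W)
    (β : Fin v → ℕ) {b : ℕ} (hβ : ∀ l, β l ≤ b) (s : Finset (Fin v)) :
    (∏ l ∈ s, X (jv l) ^ β l : MvPolynomial τ K) ∈ Vw K wz (W * (s.card * b)) := by
  classical
  induction s using Finset.induction_on with
  | empty =>
    rw [Finset.prod_empty, ← C_1]
    exact H580.C_mem_Vw _ _ _
  | insert l s hl ih =>
    rw [Finset.prod_insert hl, Finset.card_insert_of_notMem hl]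
    have h1 : ∀ n, (X (jv l) ^ n : MvPolynomial τ K) ∈ Vw K wz (W * n) := by
      intro n
      induction n with
      | zero =>
        rw [pow_zero, ← C_1]
        exact H580.C_mem_Vw _ _ _
      | succ n ihn =>
        rw [pow_succ, mul_add, mul_one]
        exact H580.mul_mem_Vw _ ihn (H580.Vw_mono _ (hW l) (H580.X_mem_Vw wz (jv l)))
    have h2 := H580.mul_mem_Vw _ (h1 (β l)) ih
    refine H580.Vw_mono _ ?_ h2
    have h3 : W * β l ≤ W * b := Nat.mul_le_mul_left _ (hβ l)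
    calc W * β l + W * (s.card * b) ≤ W * b + W * (s.card * b) := Nat.add_le_add_right h3 _
      _ = W * ((s.card + 1) * b) := by ring

/-- lower bound of the weighted Hilbert function by the one of `Q ∩ K[α]` -/
theorem hilb_lower2 [Finite α] [Finite τ] (Q : Ideal (MvPolynomial τ K)) (i : α → τ) {v : ℕ}
    (jv : Fin v → τ) (hv : VInd Q i jv) (w : α → ℕ) (wz : τ → ℕ) (hi : ∀ x, wz (i x) = w x)
    (hwz : ∀ x, wz x ≠ 0) {W : ℕ} (hW : ∀ l, wz (jv l) ≤ W) (a b : ℕ) :
    hilbF (Vw K w) (Q.comap (rename i : MvPolynomial α K →ₐ[K] MvPolynomial τ K)) a *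
      (b + 1) ^ v ≤ hilbF (Vw K wz) Q (a + W * (v * b)) := by
  classical
  have hw : ∀ x, w x ≠ 0 := fun x => by rw [← hi]; exact hwz _
  have hV : IsFilt (Vw K wz) := H580.isFilt_Vw _ hwz
  have hV1 : IsFilt (Vw K w) := H580.isFilt_Vw _ hw
  set P := Q.comap (rename i : MvPolynomial α K →ₐ[K] MvPolynomial τ K) with hP
  set Wa := (Vw K w a).map (Ideal.Quotient.mkₐ K P).toLinearMap with hWa
  have hfinWa : Module.Finite K Wa := hV1.finite_map P a
  let B := Module.finBasis K Wa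
  have hB : ∀ k, ∃ G ∈ Vw K w a, Ideal.Quotient.mk P G = (B k : MvPolynomial α K ⧸ P) := by
    intro k
    obtain ⟨G, hG, hGB⟩ := (B k).2
    exact ⟨G, hG, hGB⟩
  choose G hG hGB using hB
  set S := (Vw K wz (a + W * (v * b))).map (Ideal.Quotient.mkₐ K Q).toLinearMap with hS
  have hfinS : Module.Finite K S := hV.finite_map Q _
  let F : (Fin v → Fin (b + 1)) × Fin (finrank K Wa) → MvPolynomial τ K := fun x =>
    rename i (G x.2) * ∏ l, X (jv l) ^ (x.1 l : ℕ)
  have hF1 : ∀ x, F x ∈ Vw K wz (a + W * (v * b)) := by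
    intro x
    have h1 := prod_mem_Vw (K := K) wz jv hW (fun l => (x.1 l : ℕ)) (b := b)
      (fun l => Nat.lt_succ_iff.mp (x.1 l).2) Finset.univ
    rw [Finset.card_univ, Fintype.card_fin] at h1
    exact H580.mul_mem_Vw _ (rename_mem_Vw i w wz hi (hG x.2)) h1
  let fam : (Fin v → Fin (b + 1)) × Fin (finrank K Wa) → S := fun x =>
    ⟨Ideal.Quotient.mk Q (F x), F x, hF1 x, rfl⟩
  have hli : LinearIndependent K fam := by
    rw [Fintype.linearIndependent_iff]
    intro c hc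
    let H : MvPolynomial (Fin v) (MvPolynomial α K) :=
      ∑ β : Fin v → Fin (b + 1), monomial (Finsupp.equivFunOnFinite.symm fun l => (β l : ℕ))
        (∑ k, c (β, k) • G k)
    have hH : emb2 i jv H = ∑ x, c x • F x := by
      rw [map_sum, Fintype.sum_prod_type]
      refine Finset.sum_congr rfl fun β _ => ?_
      rw [emb2_monomial, map_sum, Finset.sum_mul]
      refine Finset.sum_congr rfl fun k _ => ?_
      simp only [F, map_smul, Finsupp.coe_equivFunOnFinite_symm, smul_mul_assoc]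
    have hHP : emb2 i jv H ∈ Q := by
      rw [hH, ← Ideal.Quotient.eq_zero_iff_mem]
      have h2 := congrArg (Subtype.val) hc
      rw [Submodule.coe_sum] at h2
      simp only [Submodule.coe_smul, ZeroMemClass.coe_zero, fam] at h2
      have h3 : Ideal.Quotient.mk Q (∑ x, c x • F x) = ∑ x, c x • Ideal.Quotient.mk Q (F x) := by
        rw [map_sum]
        refine Finset.sum_congr rfl fun x _ => ?_
        exact map_smul (Ideal.Quotient.mkₐ K Q) (c x) (F x)
      rw [h3]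
      exact h2
    have hcoef := hv H hHP
    rintro ⟨β, k⟩
    have h4 := hcoef (Finsupp.equivFunOnFinite.symm fun l => (β l : ℕ))
    have h5 : coeff (Finsupp.equivFunOnFinite.symm fun l => (β l : ℕ)) H =
        ∑ k, c (β, k) • G k := by
      simp only [H]
      rw [coeff_sum, Finset.sum_eq_single β]
      · rw [coeff_monomial, if_pos rfl]
      · intro γ _ hγ
        rw [coeff_monomial, if_neg]
        intro h
        apply hγ
        have h6 := Finsupp.equivFunOnFinite.symm.injective h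
        funext l
        exact Fin.ext (congrFun h6 l)
      · intro h; exact absurd (Finset.mem_univ _) h
    rw [h5] at h4
    have h6 : (∑ k, c (β, k) • G k) ∈ P := h4
    rw [← Ideal.Quotient.eq_zero_iff_mem] at h6
    have h7 : ∑ k, c (β, k) • (B k : MvPolynomial α K ⧸ P) = 0 := by
      rw [← h6, map_sum]
      refine Finset.sum_congr rfl fun k _ => ?_
      rw [← hGB k]
      exact (map_smul (Ideal.Quotient.mkₐ K P) (c (β, k)) (G k)).symm
    have h8 : ∑ k, c (β, k) • B k = 0 := by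
      apply Subtype.ext
      rw [Submodule.coe_sum]
      simpa using h7
    exact Fintype.linearIndependent_iff.1 B.linearIndependent _ h8 k
  have h1 := hli.fintype_card_le_finrank
  rw [Fintype.card_prod, Fintype.card_fin, Fintype.card_fun, Fintype.card_fin, Fintype.card_fin] at h1
  rw [mul_comm]
  exact h1

/-! ### [G*] for large `n` only -/

/-- `gstar` with the sum bound for large `n` only -/
theorem gstar' [DecidableEq (α → K)] {V : ℕ → Submodule K (MvPolynomial α K)} (hV : IsFilt V)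
    {w₀ : ℕ} (hX : ∀ i, (X i : MvPolynomial α K) ∈ V w₀) (hw₀ : 0 < w₀)
    {ι : Type*} (A : Finset ι) (P : ι → Ideal (MvPolynomial α K))
    (hP : ∀ i ∈ A, (P i).IsPrime) (f : ι → MvPolynomial α K) (hfP : ∀ i ∈ A, f i ∉ P i)
    {T : ℕ} (hf : ∀ i ∈ A, f i ∈ V T) (Y : ι → Finset (α → K)) {e : ℕ}
    (hjet : ∀ i ∈ A, ∀ p ∈ Y i, ∀ k, ∃ J : Ideal (MvPolynomial α K), m p ^ (k + 1) ≤ J ∧
      P i ≤ J ∧ f i ∈ J ∧ (k + e).choose e ≤ finrank K (MvPolynomial α K ⧸ J))
    {M D a n₀ : ℕ}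
    (hsum : ∀ n, n₀ ≤ n → M * ∑ i ∈ A, hilbF V (P i) n ≤ D * (n + a) ^ (e + 1))
    {T' j : ℕ} (hj : j * T ≤ T' + w₀) :
    M * (j * rkF V (A.biUnion Y) T') ≤ (e + 1).factorial * D * (T' + w₀) ^ (e + 1) := by
  obtain ⟨w, rfl⟩ : ∃ w, w₀ = w + 1 := ⟨w₀ - 1, by omega⟩
  have h1 : ∀ k, n₀ ≤ k → (M * (j * ∑ i ∈ A, rkF V (Y i) T')) * (k + (e + 1)).choose (e + 1) ≤
      D * ((k + 1) * ((T' + w) + 1) + (T' + a)) ^ (e + 1) := by
    intro k hk
    have h2 : ∀ i ∈ A, j * rkF V (Y i) T' * (k + (e + 1)).choose (e + 1) ≤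
        hilbF V (P i) ((k + 1) * (T' + (w + 1)) + T') := by
      intro i hi
      have := one_class hV hX (P i) (f i)
        (fun g hg => ((hP i hi).mem_or_mem hg).resolve_left (hfP i hi)) (hf i hi) (Y i)
        (hjet i hi) hj (k + 1)
      rwa [show k + 1 + e = k + (e + 1) by ring] at this
    have hn : n₀ ≤ (k + 1) * (T' + (w + 1)) + T' := by nlinarith
    calc (M * (j * ∑ i ∈ A, rkF V (Y i) T')) * (k + (e + 1)).choose (e + 1)
        = M * ∑ i ∈ A, j * rkF V (Y i) T' * (k + (e + 1)).choose (e + 1) := by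
          rw [Finset.mul_sum, mul_assoc, Finset.sum_mul]
      _ ≤ M * ∑ i ∈ A, hilbF V (P i) ((k + 1) * (T' + (w + 1)) + T') :=
          Nat.mul_le_mul_left _ (Finset.sum_le_sum h2)
      _ ≤ D * ((k + 1) * (T' + (w + 1)) + T' + a) ^ (e + 1) := hsum _ hn
      _ = _ := by ring
  have h3 := H163.lim_bound h1
  refine le_trans ?_ (le_trans h3 (le_of_eq (by ring)))
  exact Nat.mul_le_mul_left M (Nat.mul_le_mul_left j (hV.rkF_biUnion_le A Y T'))

/-! ### the sum over the classes of the Hilbert functions of `Q a ∩ K[α]` -/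

/-- from the sum over the classes at the level of `τ` to the level of `α` -/
theorem sum_base [Finite α] [Finite τ] {ι : Type*} (A : Finset ι)
    (Q : ι → Ideal (MvPolynomial τ K)) (i : α → τ) {v : ℕ} (jv : ι → Fin v → τ)
    (hv : ∀ a ∈ A, VInd (Q a) i (jv a)) (w : α → ℕ) (wz : τ → ℕ) (hi : ∀ x, wz (i x) = w x)
    (hwz : ∀ x, wz x ≠ 0) {W : ℕ} (hW0 : 0 < W) (hW : ∀ x, wz x ≤ W) {M B s E n₀ : ℕ}
    (hsum : ∀ n, n₀ ≤ n → M * ∑ a ∈ A, hilbF (Vw K wz) (Q a) n ≤ B * (n + s) ^ (E + v))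
    (n : ℕ) (hn : n₀ ≤ n) (hs : s ≤ n) :
    M * ∑ a ∈ A, hilbF (Vw K w)
        ((Q a).comap (rename i : MvPolynomial α K →ₐ[K] MvPolynomial τ K)) n ≤
      (2 ^ v * (v + 1) ^ (E + v) * B * W ^ v) * (n + s) ^ E := by
  classical
  have h1 : ∀ a ∈ A, hilbF (Vw K w)
      ((Q a).comap (rename i : MvPolynomial α K →ₐ[K] MvPolynomial τ K)) n *
        (n / W + 1) ^ v ≤ hilbF (Vw K wz) (Q a) (n + W * (v * (n / W))) := fun a ha =>
    hilb_lower2 (Q a) i (jv a) (hv a ha) w wz hi hwz (fun l => hW _) n (n / W)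
  have hV : IsFilt (Vw K wz) := H580.isFilt_Vw _ hwz
  have h2 : n + W * (v * (n / W)) ≤ (v + 1) * n := by
    have h3 : W * (n / W) ≤ n := Nat.mul_div_le n W
    calc n + W * (v * (n / W)) = n + v * (W * (n / W)) := by ring
      _ ≤ n + v * n := Nat.add_le_add_left (Nat.mul_le_mul_left v h3) n
      _ = (v + 1) * n := by ring
  set Sg := M * ∑ a ∈ A, hilbF (Vw K w)
    ((Q a).comap (rename i : MvPolynomial α K →ₐ[K] MvPolynomial τ K)) n with hSg
  have h4 : Sg * (n / W + 1) ^ v ≤ B * ((v + 1) * n + s) ^ (E + v) := by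
    rw [hSg, mul_assoc, Finset.sum_mul]
    calc M * ∑ a ∈ A, hilbF (Vw K w)
          ((Q a).comap (rename i : MvPolynomial α K →ₐ[K] MvPolynomial τ K)) n *
            (n / W + 1) ^ v
        ≤ M * ∑ a ∈ A, hilbF (Vw K wz) (Q a) (n + W * (v * (n / W))) :=
          Nat.mul_le_mul_left _ (Finset.sum_le_sum h1)
      _ ≤ M * ∑ a ∈ A, hilbF (Vw K wz) (Q a) ((v + 1) * n) :=
          Nat.mul_le_mul_left _ (Finset.sum_le_sum fun a _ => hV.hilbF_mono (Q a) h2)
      _ ≤ B * ((v + 1) * n + s) ^ (E + v) := hsum _ (by nlinarith)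
  have h5 : n + 1 ≤ W * (n / W + 1) := by
    have := Nat.lt_mul_div_succ n hW0
    omega
  have h6 : Sg * (n + 1) ^ v ≤ (2 ^ v * (v + 1) ^ (E + v) * B * W ^ v * (n + s) ^ E) *
      (n + 1) ^ v := by
    calc Sg * (n + 1) ^ v ≤ Sg * (W * (n / W + 1)) ^ v :=
          Nat.mul_le_mul_left _ (Nat.pow_le_pow_left h5 v)
      _ = W ^ v * (Sg * (n / W + 1) ^ v) := by rw [mul_pow]; ring
      _ ≤ W ^ v * (B * ((v + 1) * n + s) ^ (E + v)) := Nat.mul_le_mul_left _ h4
      _ ≤ W ^ v * (B * ((v + 1) * (n + s)) ^ (E + v)) := by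
          refine Nat.mul_le_mul_left _ (Nat.mul_le_mul_left _ (Nat.pow_le_pow_left ?_ _))
          nlinarith
      _ = W ^ v * (B * ((v + 1) ^ (E + v) * ((n + s) ^ E * (n + s) ^ v))) := by
          rw [mul_pow, pow_add (n + s) E v]
      _ ≤ W ^ v * (B * ((v + 1) ^ (E + v) * ((n + s) ^ E * (2 * (n + 1)) ^ v))) := by
          refine Nat.mul_le_mul_left _ (Nat.mul_le_mul_left _ (Nat.mul_le_mul_left _
            (Nat.mul_le_mul_left _ (Nat.pow_le_pow_left ?_ v))))
          omega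
      _ = _ := by rw [mul_pow]; ring
  exact Nat.le_of_mul_le_mul_right h6 (pow_pos (Nat.succ_pos n) v)

/-! ### the main theorem of the row -/

/-- **(S1), [G*] at the level of `Z+`.** -/
theorem gstar_Z [Fintype α] [DecidableEq α] [Finite τ] [DecidableEq (α → K)] {ι : Type*}
    (A : Finset ι) (Q : ι → Ideal (MvPolynomial τ K)) (hQ : ∀ a ∈ A, (Q a).IsPrime)
    (i : α → τ) {v : ℕ} (jv : ι → Fin v → τ) (hv : ∀ a ∈ A, VInd (Q a) i (jv a))
    (w : α → ℕ) (wz : τ → ℕ) (hi : ∀ x, wz (i x) = w x)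
    (hwz : ∀ x, wz x ≠ 0) {W : ℕ} (hW0 : 0 < W) (hW : ∀ x, wz x ≤ W)
    (f : ι → MvPolynomial α K) {T : ℕ} (hf : ∀ a ∈ A, f a ∈ Vw K w T)
    (hfQ : ∀ a ∈ A, rename i (f a) ∉ Q a)
    (Y : ι → Finset (α → K)) {c e : ℕ} (he : Fintype.card α - c = e + 1)
    (F : ι → Fin c → MvPolynomial α K)
    (hFY : ∀ a ∈ A, ∀ p ∈ Y a, ∀ l, eval p (F a l) = 0)
    (hind : ∀ a ∈ A, ∀ p ∈ Y a, LinearIndependent K (fun l => H930.grad p (F a l)))
    (hPY : ∀ a ∈ A, ∀ p ∈ Y a,
      (Q a).comap (rename i : MvPolynomial α K →ₐ[K] MvPolynomial τ K) ≤ H930.germ p (F a))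
    (hfY : ∀ a ∈ A, ∀ p ∈ Y a, eval p (f a) = 0)
    {M B s n₀ : ℕ}
    (hsum : ∀ n, n₀ ≤ n → M * ∑ a ∈ A, hilbF (Vw K wz) (Q a) n ≤ B * (n + s) ^ (e + 1 + v))
    {T' j : ℕ} (hj : j * T ≤ T' + W) :
    M * (j * rkF (Vw K w) (A.biUnion Y) T') ≤
      (e + 1).factorial * (2 ^ v * (v + 1) ^ (e + 1 + v) * B * W ^ v) * (T' + W) ^ (e + 1) := by
  have hw : ∀ x, w x ≠ 0 := fun x => by rw [← hi]; exact hwz _
  refine gstar' (H580.isFilt_Vw w hw) (w₀ := W)
    (fun x => H580.Vw_mono _ (by rw [← hi]; exact hW _) (H580.X_mem_Vw w x)) hW0 A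
    (fun a => (Q a).comap (rename i : MvPolynomial α K →ₐ[K] MvPolynomial τ K))
    (fun a ha => by have := hQ a ha; infer_instance) f (fun a ha h => hfQ a ha h) hf Y ?_
    (D := 2 ^ v * (v + 1) ^ (e + 1 + v) * B * W ^ v) (a := s) (n₀ := max n₀ s) ?_ hj
  · intro a ha p hp k
    refine ⟨H930.J p (F a) (k + 1) ⊔ Ideal.span {f a}, ?_, ?_, ?_, ?_⟩
    · exact (H930.pow_le_J p (F a) (k + 1)).trans le_sup_left
    · exact ((hPY a ha p hp).trans (H930.germ_le_J p (F a) (k + 1))).trans le_sup_left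
    · exact Ideal.mem_sup_right (Ideal.mem_span_singleton_self _)
    · exact finrank_quot_J_sup p (F a) (hFY a ha p hp) (hind a ha p hp) (f a) (hfY a ha p hp) he k
  · intro n hn
    exact sum_base A Q i jv hv w wz hi hwz hW0 hW hsum n ((le_max_left _ _).trans hn)
      ((le_max_right _ _).trans hn)

end Vale.Agent.P054.T2.H701
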