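import Vale.Agent.P054.T2.H701.GStarEdge
import Vale.Agent.P054.T2.H930.GlueB1

/-!
# P054 / T2, row (S1) / B12: [G*] at the real edges, over `ZData`
-/

open MvPolynomial Module

namespace Vale.Agent.P054.T2.H701

open H580 (IsFilt hilbF rkF Vw wh)
open H930 (germ grad sysZ ZData edgePt hatPt j1 j2 Pt)
open H686 (Crd mu meet Qf)

variable {k : Type*} [Field k] [CharZero k] {n : ℕ}
  {E0 E1 E2 : Finset (((Fin (n + 1) → k) × (Fin (n + 1) → k)) ×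
      ((Fin (n + 1) → k) × (Fin (n + 1) → k)))}
  {W N c₀ c₁ c₂ σ₁ σ₂ : ℕ}

/-- **[G*] over `hat X₁`** for a set `Bd ⊆ E2` of bad edges: `φ` of level `T` in `(g, s)`,
class-dependent, vanishing at the points of `Bd` of the class, not in the prime. -/
theorem zgstar1 (Z : ZData k n E0 E1 E2 (wh (Crd n) (Pt n) W) N c₀ c₁ c₂ σ₁ σ₂) (hW0 : 0 < W)
    (δ d₁ d₂ : ℕ → ℕ)
    (hδ1 : ∀ j < c₀, 1 ≤ δ j) (hd₁1 : ∀ j < c₁, 1 ≤ d₁ j) (hd₂1 : ∀ j < c₂, 1 ≤ d₂ j)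
    (hδ : ∀ i : Fin c₀, Z.f i ∈ restrictTotalDegree (Crd n) k (δ i))
    (hd₁ : ∀ i : Fin c₁, Z.h i ∈ Vw k (wh (Crd n) (Pt n) W) (d₁ i))
    (hd₂ : ∀ i : Fin c₂, Z.h' i ∈ Vw k (wh (Crd n) (Pt n) W) (d₂ i))
    {v e₁ : ℕ} (hv : c₂ + v = Fintype.card (Pt n))
    (he : Fintype.card (Crd n) + Fintype.card (Pt n) - (c₀ + c₁) = e₁ + 1)
    [DecidableEq (Crd n ⊕ Pt n → k)] {T : ℕ}
    (Bd : Finset (((Fin (n + 1) → k) × (Fin (n + 1) → k)) ×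
      ((Fin (n + 1) → k) × (Fin (n + 1) → k)))) (hBE : Bd ⊆ E2)
    (hBd : ∀ e ∈ Bd, ∃ φ ∈ Vw k (wh (Crd n) (Pt n) W) T,
      (∀ e' ∈ Bd, germ (edgePt e'.1 e'.2) Z.F = germ (edgePt e.1 e.2) Z.F →
        eval (hatPt e'.1 (mu e'.1 e'.2)) φ = 0) ∧
      rename (j1 n) φ ∉ germ (edgePt e.1 e.2) Z.F)
    {T' j : ℕ} (hj : j * T ≤ T' + W) :
    (W ^ (Fintype.card (Pt n) + Fintype.card (Pt n))) *
      (j * rkF (Vw k (wh (Crd n) (Pt n) W))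
        (Bd.image fun e => hatPt e.1 (mu e.1 e.2)) T') ≤
      CS e₁ v (Fintype.card (Crd n) + Fintype.card (Pt n) + Fintype.card (Pt n)) *
        (((∏ k ∈ Finset.range c₀, δ k) * (∏ k ∈ Finset.range c₁, d₁ k) *
          ∏ k ∈ Finset.range c₂, d₂ k) * W ^ v) * (T' + W) ^ (e₁ + 1) := by
  classical
  have h1 : ∀ e : ((Fin (n + 1) → k) × (Fin (n + 1) → k)) ×
      ((Fin (n + 1) → k) × (Fin (n + 1) → k)),
      edgePt e.1 e.2 ∘ Sum.map id Sum.inl = hatPt e.1 (mu e.1 e.2) :=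
    fun e => H930.edgePt_comp_j1 e.1 e.2
  have h2 : ∀ e ∈ Bd, edgePt e.1 e.2 ∘ Sum.map id Sum.inr = hatPt e.2 (mu e.2 e.1) := by
    intro e he'
    have h3 := Z.adj e (Z.mem0 (hBE he'))
    exact H930.edgePt_comp_j2 h3.1 h3.2
  have key := gstar_Z1 (K := k) Bd (fun e => edgePt e.1 e.2) Z.f Z.h Z.h'
    (fun e he' i => Z.f_zero i e (Z.mem0 (hBE he')))
    (fun e he' i => by rw [h1]; exact Z.h_zero i e (Z.mem0 (hBE he')))
    (fun e he' i => by rw [h2 e he']; exact Z.h'_zero i e (Z.mem0 (hBE he')))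
    (fun e he' => Z.f_ind e (hBE he'))
    (fun e he' => by rw [h1]; exact Z.h_ind e (hBE he'))
    (fun e he' => by rw [h2 e he']; exact Z.h'_ind e (hBE he'))
    hW0 δ d₁ d₂ hδ1 hd₁1 hd₂1 hδ hd₁ hd₂ hv he Bd (Finset.Subset.refl _)
    (fun e he' => by
      obtain ⟨φ, h3, h4, h5⟩ := hBd e he'
      refine ⟨φ, h3, fun e' he'' hcl => ?_, h5⟩
      rw [h1]
      exact h4 e' he'' hcl) hj
  have himg : (Bd.image fun e => edgePt e.1 e.2 ∘ Sum.map id Sum.inl) =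
      Bd.image fun e => hatPt e.1 (mu e.1 e.2) :=
    Finset.image_congr fun e _ => h1 e
  rw [himg] at key
  exact key

/-- **[G*] over `hat X₂`**. -/
theorem zgstar2 (Z : ZData k n E0 E1 E2 (wh (Crd n) (Pt n) W) N c₀ c₁ c₂ σ₁ σ₂) (hW0 : 0 < W)
    (δ d₁ d₂ : ℕ → ℕ)
    (hδ1 : ∀ j < c₀, 1 ≤ δ j) (hd₁1 : ∀ j < c₁, 1 ≤ d₁ j) (hd₂1 : ∀ j < c₂, 1 ≤ d₂ j)
    (hδ : ∀ i : Fin c₀, Z.f i ∈ restrictTotalDegree (Crd n) k (δ i))
    (hd₁ : ∀ i : Fin c₁, Z.h i ∈ Vw k (wh (Crd n) (Pt n) W) (d₁ i))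
    (hd₂ : ∀ i : Fin c₂, Z.h' i ∈ Vw k (wh (Crd n) (Pt n) W) (d₂ i))
    {v e₁ : ℕ} (hv : c₁ + v = Fintype.card (Pt n))
    (he : Fintype.card (Crd n) + Fintype.card (Pt n) - (c₀ + c₂) = e₁ + 1)
    [DecidableEq (Crd n ⊕ Pt n → k)] {T : ℕ}
    (Bd : Finset (((Fin (n + 1) → k) × (Fin (n + 1) → k)) ×
      ((Fin (n + 1) → k) × (Fin (n + 1) → k)))) (hBE : Bd ⊆ E2)
    (hBd : ∀ e ∈ Bd, ∃ φ ∈ Vw k (wh (Crd n) (Pt n) W) T,
      (∀ e' ∈ Bd, germ (edgePt e'.1 e'.2) Z.F = germ (edgePt e.1 e.2) Z.F →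
        eval (hatPt e'.2 (mu e'.2 e'.1)) φ = 0) ∧
      rename (j2 n) φ ∉ germ (edgePt e.1 e.2) Z.F)
    {T' j : ℕ} (hj : j * T ≤ T' + W) :
    (W ^ (Fintype.card (Pt n) + Fintype.card (Pt n))) *
      (j * rkF (Vw k (wh (Crd n) (Pt n) W))
        (Bd.image fun e => hatPt e.2 (mu e.2 e.1)) T') ≤
      CS e₁ v (Fintype.card (Crd n) + Fintype.card (Pt n) + Fintype.card (Pt n)) *
        (((∏ k ∈ Finset.range c₀, δ k) * (∏ k ∈ Finset.range c₂, d₂ k) *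
          ∏ k ∈ Finset.range c₁, d₁ k) * W ^ v) * (T' + W) ^ (e₁ + 1) := by
  classical
  have h1 : ∀ e : ((Fin (n + 1) → k) × (Fin (n + 1) → k)) ×
      ((Fin (n + 1) → k) × (Fin (n + 1) → k)),
      edgePt e.1 e.2 ∘ Sum.map id Sum.inl = hatPt e.1 (mu e.1 e.2) :=
    fun e => H930.edgePt_comp_j1 e.1 e.2
  have h2 : ∀ e ∈ Bd, edgePt e.1 e.2 ∘ Sum.map id Sum.inr = hatPt e.2 (mu e.2 e.1) := by
    intro e he'
    have h3 := Z.adj e (Z.mem0 (hBE he'))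
    exact H930.edgePt_comp_j2 h3.1 h3.2
  have key := gstar_Z2 (K := k) Bd (fun e => edgePt e.1 e.2) Z.f Z.h Z.h'
    (fun e he' i => Z.f_zero i e (Z.mem0 (hBE he')))
    (fun e he' i => by rw [h1]; exact Z.h_zero i e (Z.mem0 (hBE he')))
    (fun e he' i => by rw [h2 e he']; exact Z.h'_zero i e (Z.mem0 (hBE he')))
    (fun e he' => Z.f_ind e (hBE he'))
    (fun e he' => by rw [h1]; exact Z.h_ind e (hBE he'))
    (fun e he' => by rw [h2 e he']; exact Z.h'_ind e (hBE he'))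
    hW0 δ d₁ d₂ hδ1 hd₁1 hd₂1 hδ hd₁ hd₂ hv he Bd (Finset.Subset.refl _)
    (fun e he' => by
      obtain ⟨φ, h3, h4, h5⟩ := hBd e he'
      refine ⟨φ, h3, fun e' he'' hcl => ?_, h5⟩
      rw [h2 e' he'']
      exact h4 e' he'' hcl) hj
  have himg : (Bd.image fun e => edgePt e.1 e.2 ∘ Sum.map id Sum.inr) =
      Bd.image fun e => hatPt e.2 (mu e.2 e.1) :=
    Finset.image_congr fun e he' => h2 e he'
  rw [himg] at key
  exact key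

end Vale.Agent.P054.T2.H701
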