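import Vale.Agent.P054.T2.H580.FiltDense
import Vale.Agent.P054.T2.H930.Jets

/-!
# P054 / T2, section C, leaf [C4]: a good base point gives a countable class

`Ph` = prime of the leaf-hat germ in `K[u, r]`, `P2 = Ph ∩ K[r]`.
-/

open MvPolynomial Module

namespace Vale.Agent.P054.T2.H701

open H580 (IsFilt hilbF rkF Vw)
open H163 (m mem_m)
open H441 (hF rkY)

variable {α β K : Type*} [Field K]

/-- the elimination ideal `Ph ∩ K[r]` -/
noncomputable def cr (Ph : Ideal (MvPolynomial (α ⊕ β) K)) : Ideal (MvPolynomial β K) :=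
  Ph.comap (rename (Sum.inr : β → α ⊕ β)).toRingHom

theorem mem_cr {Ph : Ideal (MvPolynomial (α ⊕ β) K)} {F : MvPolynomial β K} :
    F ∈ cr Ph ↔ rename (Sum.inr : β → α ⊕ β) F ∈ Ph := Iff.rfl

theorem cr_mono {I J : Ideal (MvPolynomial (α ⊕ β) K)} (h : I ≤ J) : cr I ≤ cr J :=
  fun _ hF => h hF

/-- **good implies countable from `s`** (abstract form): separated points `Y` of the variety of
`P2`, jets of dimension `s`, the comparison `hfact` and a good base point. `H n` stands for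
`hilbF (Vw K wt) Ph n`. -/
theorem good_count [Finite β] (P2 : Ideal (MvPolynomial β K)) (H : ℕ → ℕ) (hH : Monotone H)
    (μ : ℕ → ℕ) (Y : Finset (β → K)) {N s a : ℕ} (hN : rkY Y N = Y.card)
    (hjet : ∀ r ∈ Y, ∀ k, ∃ J : Ideal (MvPolynomial β K), m r ^ (k + 1) ≤ J ∧ P2 ≤ J ∧
      (k + s).choose s ≤ finrank K (MvPolynomial β K ⧸ J))
    (hfact : ∀ T, hF P2 T ≤ μ T + H (T + a))
    (hgood : ∀ T₀, ∃ T, T₀ ≤ T ∧ 2 * μ T ≤ hF P2 T) :
    ∀ k₀, ∃ k, k₀ ≤ k ∧
      Y.card * (k + s).choose s ≤ 2 * H ((k + 1) * (N + 1) + (N + 1 + a)) := by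
  classical
  intro k₀
  obtain ⟨T, hT, hg⟩ := hgood ((k₀ + 1) * (N + 1))
  -- `k + 1 = T / (N + 1)`
  have hNpos : 0 < N + 1 := Nat.succ_pos _
  have h1 : k₀ + 1 ≤ T / (N + 1) := (Nat.le_div_iff_mul_le hNpos).2 hT
  obtain ⟨k, hk⟩ : ∃ k, T / (N + 1) = k + 1 := ⟨T / (N + 1) - 1, by omega⟩
  refine ⟨k, by omega, ?_⟩
  have h2 : (k + 1) * (N + 1) ≤ T := by
    rw [← hk]; exact Nat.div_mul_le_self T (N + 1)
  have h3 : T < (k + 1) * (N + 1) + (N + 1) := by
    have := Nat.lt_div_mul_add (a := T) hNpos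
    rw [hk] at this
    exact this
  -- lower bound by jets
  choose! J hJ using hjet
  have h4 : rkY Y N * (k + s).choose s ≤ hF P2 ((k + 1) * N + k * 1) := by
    have := (H580.isFilt_total (σ := β) (k := K)).lo (w₀ := 1)
      (fun i => by rw [mem_restrictTotalDegree]; exact (totalDegree_X i).le)
      P2 Y (fun r => J r k) (T := N) (k := k) (e := s)
      (fun r hr => (hJ r hr k).1) (fun r hr F hF _ => (hJ r hr k).2.1 hF)
      (fun r hr => (hJ r hr k).2.2)
    exact this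
  have h5 : hF P2 ((k + 1) * N + k * 1) ≤ hF P2 T :=
    (H580.isFilt_total (σ := β) (k := K)).hilbF_mono P2 (by nlinarith)
  have h6 : hF P2 T ≤ 2 * H (T + a) := by
    have := hfact T
    omega
  have h7 : H (T + a) ≤ H ((k + 1) * (N + 1) + (N + 1 + a)) := hH (by omega)
  rw [hN] at h4
  omega

variable [Fintype α] [Fintype β] [DecidableEq α] [DecidableEq β]

omit [Fintype α] [Fintype β] [DecidableEq α] [DecidableEq β] in
theorem pow_le_cr (p : α ⊕ β → K) (n : ℕ) :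
    m (fun b => p (Sum.inr b)) ^ n ≤ cr (α := α) (H930.mx p ^ n) := by
  have h1 : m (fun b => p (Sum.inr b)) ≤ cr (α := α) (H930.mx p) := by
    intro F hF
    rw [mem_m] at hF
    rw [mem_cr, H930.mem_mx, eval_rename]
    exact hF
  refine (Ideal.pow_right_mono h1 n).trans ?_
  exact Ideal.le_comap_pow (rename (Sum.inr : β → α ⊕ β)).toRingHom n

/-- **good implies countable from `s`** (concrete form): `G` = the class, all its points have the
same leaf-hat germ prime `Ph`. -/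
theorem good_cS [DecidableEq (β → K)] {c : ℕ} (F : Fin c → MvPolynomial (α ⊕ β) K)
    (G : Finset (α ⊕ β → K)) (Ph : Ideal (MvPolynomial (α ⊕ β) K))
    (hG : ∀ p ∈ G, Ph = H930.germ p F)
    (w : α ⊕ β → ℕ) (hw : ∀ x, w x ≠ 0) (μ : ℕ → ℕ) {N s a : ℕ}
    (hinj : Set.InjOn (fun (p : α ⊕ β → K) (b : β) => p (Sum.inr b)) G)
    (hN : rkY (G.image fun (p : α ⊕ β → K) (b : β) => p (Sum.inr b)) N = G.card)
    (hjet : ∀ p ∈ G, ∀ k, (k + s).choose s ≤
      finrank K (MvPolynomial β K ⧸ cr (H930.J p F (k + 1))))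
    (hfact : ∀ T, hF (cr Ph) T ≤ μ T + hilbF (Vw K w) Ph (T + a))
    (hgood : ∀ T₀, ∃ T, T₀ ≤ T ∧ 2 * μ T ≤ hF (cr Ph) T) :
    ∀ k₀, ∃ k, k₀ ≤ k ∧ G.card * (k + s).choose s ≤
      2 * hilbF (Vw K w) Ph ((k + 1) * (N + 1) + (N + 1 + a)) := by
  classical
  have hcard : (G.image fun (p : α ⊕ β → K) (b : β) => p (Sum.inr b)).card = G.card :=
    Finset.card_image_of_injOn hinj
  rw [← hcard]
  refine good_count (cr Ph) (hilbF (Vw K w) Ph)
    (fun a b h => (H580.isFilt_Vw w hw).hilbF_mono Ph h) μ _ (by rw [hN, hcard]) ?_ hfact hgood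
  intro r hr k
  obtain ⟨p, hp, rfl⟩ := Finset.mem_image.1 hr
  refine ⟨cr (H930.J p F (k + 1)), ?_, ?_, hjet p hp k⟩
  · exact (pow_le_cr p (k + 1)).trans (cr_mono (H930.pow_le_J p F (k + 1)))
  · rw [hG p hp]
    exact cr_mono (H930.germ_le_J p F (k + 1))

end Vale.Agent.P054.T2.H701
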